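import Crest.Agent.X212.Add46.Cut
import Crest.Agent.X212.Adc42.Root
import Crest.Agent.X212.Hp13.Cmb
import Crest.Agent.X212.Inv14.Main
import Crest.Agent.X212.Ixc61.Ch
import Crest.Agent.X212.Top36.Kap
import Crest.Agent.X212.Nk89.Frd

/-!
# Row 212, P-ADD (helper46): additivity of the index over the pieces
-/

set_option autoImplicit false
set_option linter.unusedSectionVars false
noncomputable section
open scoped Manifold ContDiff Topology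
open MeasureTheory Set Function Filter

namespace Crest.Agent.X212.Add46
open An M Nd18 Nk89 Cht98 Rf65 Cyf70 Pj41 Cyl58

variable {Wi : Type} {κ lam : Type} [Fintype κ] [Fintype lam] [DecidableEq lam]
  {A' H : Type} [Fintype A'] [DecidableEq A'] [Fintype H] {r n : ℕ}

section ind
variable {X : Mf 4} {A : Type} [Fintype A] {M : Mark X A κ} {W : World M} {N : ML M lam}
  {Λ : Lns W N} {J : Job Wi Λ A' H r n} {c d : M.Cl} {b : Bp J c} {π : Reg A}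

/-- the pieces inside `π` -/
abbrev Ins (c : M.Cl) (π : Reg A) : Set (Reg A) := {ρ | M.sys.Piece c.1 ρ ∧ M.sys.U ρ ⊆ M.sys.U π}

theorem exists_in (u : d.1 ⊆ c.1) (hπ : M.sys.Piece d.1 π) {a : A} (ha : a ∈ c.1) {e : Bool}
    (h : (M.sys.w a).half e ⊆ M.sys.U π) : ∃ ρ ∈ Ins c π, ρ a = some e := by
  have := M.con
  obtain ⟨ρ, h1, h2⟩ := (Sys.existsUnique_adj c.2 ha e).exists
  obtain ⟨x, hx⟩ := (M.sys.w a).ne e
  exact ⟨ρ, ⟨h1, (hπ.sub h1.toIsReg (c.2.mono (union_subset u h1.bd_subset))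
    (fun a' k => h1.not_inn a' (u k)) (h hx) (h1.adj _ _ h2 hx)).subset⟩, h2⟩

variable (b) (δ : ℝ) (γ : ∀ a, YC (J.xs a).Y.M κ (lam ⊕ lam)) (f : Bool)

/-- a standard configuration on a stage with the index `v` and the level `k` -/
def Res (d : M.Cl) (π : Reg A) (v k : ℝ) : Prop :=
  ∃ (τ : A → ℝ) (s : Stg d b) (x : C0 (W.Z d) κ (lam ⊕ lam)) (m : ℤ), s.OK τ ∧
    (s.bg π).Std x (fun i => γ i.1.1) ∧ (s.bg π).Ix (spO f (W.un d {π})) x 8 δ m ∧ (m : ℝ) = v ∧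
    (s.bg π).kap (W.un d {π}) x = k

variable {b δ γ f} (L : IxL κ (lam ⊕ lam) 8) (hJ : J.OK) (hW : W.Nrm) (hΛ : Λ.Nrm)
  (hm : cylW c ⊆ J.m.1) (h0 : 0 < δ) (h1 : δ ≤ dl0)
include L hJ hW hΛ hm h0 h1

theorem step {d₃ d₄ : M.Cl} {ρ₃ ρ₄ : Reg A} {a : A} {v₃ v₄ k₃ k₄ : ℝ} {w : ℤ} (u : M.Up d c)
    (hd : d.1 = c.1 \ M.sys.inn π) (hπ : M.sys.Piece d.1 π) (ha : a ∈ c.1 ∩ M.sys.inn π)
    (u₃ : M.Up d d₃) (u₄ : M.Up d d₄) (p₃ : M.sys.Piece d₃.1 ρ₃) (p₄ : M.sys.Piece d₄.1 ρ₄)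
    (e₃ : ρ₃ a = some false) (e₄ : ρ₄ a = some true)
    (U₃ : M.sys.U ρ₃ = M.sys.U π ∩ (M.sys.w a).sd false)
    (U₄ : M.sys.U ρ₄ = M.sys.U π ∩ (M.sys.w a).sd true)
    (hb : ∀ a' e, a' ≠ a → (π a' = some e ↔ ρ₃ a' = some e ∨ ρ₄ a' = some e))
    (dj : ∀ a', a' ≠ a → ρ₃ a' = none ∨ ρ₄ a' = none)
    (i₁ : ∀ a' ∈ c.1 \ d.1, a' ≠ a → a' ∉ d₃.1 ∨ a' ∉ d₄.1) (i₂ : ∀ a' ∈ c.1, a' ∈ d₃.1 ∨ a' ∈ d₄.1)
    (hF : ∀ i : EdP d {π}, Fz κ (lam ⊕ lam) 8 (jX J i.1.1) f (γ i.1.1) δ)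
    (hw : (jX J a).bg.Ix (spO f univ) (cy (γ a)) 8 δ w) (R₃ : Res b δ γ f d₃ ρ₃ v₃ k₃)
    (R₄ : Res b δ γ f d₄ ρ₄ v₄ k₄) : Res b δ γ f d π (v₃ + v₄ - w) (k₃ + k₄) := by
  classical
  obtain ⟨τ₃, s₃, x₃, m₃, o₃, t₃, n₃, rfl, rfl⟩ := R₃
  obtain ⟨τ₄, s₄, x₄, m₄, o₄, t₄, n₄, rfl, rfl⟩ := R₄
  have nd : a ∈ c.1 \ d.1 := ⟨ha.1, fun k => (hd.le k).2 ha.2⟩
  have hc := cyl_of u nd
  have a₃ := p₃.bd_subset (Sys.mem_bd_of e₃)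
  have a₄ := p₄.bd_subset (Sys.mem_bd_of e₄)
  obtain ⟨w₃, η₃, σ₃, q₃⟩ := t₃.2 (toE ⟨a₃, hc.2⟩ e₃)
  obtain ⟨w₄, η₄, σ₄, q₄⟩ := t₄.2 (toE ⟨a₄, hc.2⟩ e₄)
  obtain ⟨t, l1, l2⟩ := ((tendsto_nl.eventually (eventually_ge_atTop
    (max σ₃ 0 + 1 + (max σ₄ 0 + 1)))).and (Ico_mem_nhdsLT one_half_lt_one)).exists
  let τ : A → ℝ := fun a' => if a' = a then t else min (τ₃ a') (τ₄ a')
  have τa : τ a = t := if_pos rfl
  obtain ⟨s, o⟩ := exists_stg (b := b) (τ := τ) hJ hm u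
    (fun a' k => (if_neg fun e : a' = a => nd.2 (e ▸ k)).trans (by rw [o₃.t1 _ (u₃.1 k), o₄.t1 _ (u₄.1 k), min_self]))
    fun a' k => by
      by_cases e : a' = a
      · rwa [e, τa]
      · rw [show τ a' = _ from if_neg e]
        exact ⟨le_min (o₃.tm k.1).1 (o₄.tm k.1).1, min_lt_iff.2 ((i₁ a' k e).imp
          (fun k' => (o₃.t2 a' ⟨k.1, k'⟩).2) fun k' => (o₄.t2 a' ⟨k.1, k'⟩).2)⟩
  have T : Two s s₃ s₄ τ τ₃ τ₄ π ρ₃ ρ₄ a (max σ₃ 0 + 1) (nl t - (max σ₃ 0 + 1)) :=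
    ⟨⟨hJ, hW, hΛ, hm, o, o₃, u₃, hc, a₃, hπ, p₃, ha.2, e₃, U₃.le.trans inter_subset_left,
        fun a' e k k' => (hb a' e k).2 (.inl k'), fun a' k => (if_neg fun e : a' = a => k.2 (e ▸ a₃)).trans
          (min_eq_left ((o₃.tm k.1).2.trans_eq (o₄.t1 _ ((i₂ _ k.1).resolve_left k.2)).symm))⟩,
      ⟨hJ, hW, hΛ, hm, o, o₄, u₄, hc, a₄, hπ, p₄, ha.2, e₄, U₄.le.trans inter_subset_left,
        fun a' e k k' => (hb a' e k).2 (.inr k'), fun a' k => (if_neg fun e : a' = a => k.2 (e ▸ a₄)).trans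
          (min_eq_right ((o₄.tm k.1).2.trans_eq (o₃.t1 _ ((i₂ _ k.1).resolve_right k.2)).symm))⟩,
      U₃.ge, U₄.ge, fun a' e k => (hb a' e (by rintro rfl; simp [ha.2.1] at k)).1 k, dj,
      by linarith [le_max_right σ₃ 0], by linarith [le_max_right σ₄ 0], by rw [τa]; ring⟩
  obtain ⟨y₀, hy⟩ := T.S₃.adm_off (fun a' k => by_contra fun k' => k.2 (hd.ge ⟨k.1, k'⟩)) t₃.1
  obtain ⟨x, cf⟩ := glc' T.gc (T.gc_sp false) hy t₃.1 t₄.1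
    (Aps75.st_mono q₃ (show σ₃ ≤ max σ₃ 0 + 1 - 1 by linarith [le_max_left σ₃ 0]))
    (Aps75.st_mono q₄ (show σ₄ ≤ nl t - (max σ₃ 0 + 1) - 1 by linarith [le_max_left σ₄ 0]))
  have st : (s.bg π).Std x fun i => γ i.1.1 := ⟨cf.a₁, fun i => by
    obtain ⟨_, _, _, _, _, _, _, _, c₃, c₄, -⟩ := cf.ex
    obtain ⟨j | j, rfl⟩ := T.bij.2 i
    · exact (L.std.1 _ _ _ _ T.gc.p₃ _ _ _ _ _ _ _ _ _ (jX_ok hJ _) (o.ok hπ false) (o₃.ok p₃ false)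
        (T.S₃.gp_mk T.R₃ (by linarith [T.h₃]) ⟨s₃.up.1 j.1.1.1.2.1, j.1.1.1.2.2⟩ (T.S₃.ne j)
          (EdP.eq j.1)) ⟨0, o.eb.ht (T.S₃.oe j).1 le_rfl, o₃.eb.ht j.1.1 le_rfl⟩ cf.a₁ cf.a₃ c₃).2
        (t₃.2 j.1)
    · exact (L.std.1 _ _ _ _ T.gc.p₄ _ _ _ _ _ _ _ _ _ (jX_ok hJ _) (o.ok hπ false) (o₄.ok p₄ false)
        (T.S₄.gp_mk T.R₄ (by linarith [T.h₄]) ⟨s₄.up.1 j.1.1.1.2.1, j.1.1.1.2.2⟩ (T.S₄.ne j)
          (EdP.eq j.1)) ⟨0, o.eb.ht (T.S₄.oe j).1 le_rfl, o₄.eb.ht j.1.1 le_rfl⟩ cf.a₁ cf.a₄ c₄).2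
        (t₄.2 j.1)⟩
  obtain ⟨m, hi⟩ := L.rz _ _ _ x _ δ (o.ok hπ f) st h0 h1 fun i => ⟨f, 0, fun z hz => by
    have := (o.ls hπ).sub i (o.eb.U_sub i.1 le_rfl hz)
    cases f <;> simp [spO, this], hF i⟩
  have e := L.cut _ _ _ _ _ _ _ T.gc _ _ _ f _ _ _ _ δ _ _ _ _ (T.gc_sp f) cf hi hw n₃ n₄
  exact ⟨τ, s, x, m, o, st, hi, by rw [eq_sub_of_add_eq e]; push_cast; rfl,
    ((L.top.2.1 _ _ _ _ _ _ _ T.gc _ _ _ f (T.gc_sp f)).2.2 _ _ _ _ _ _ cf t₃ t₄).1⟩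

theorem ind {v k : Reg A → ℝ} {w : A → ℤ} {V : Set X.M}
    (base : ∀ ρ, M.sys.Piece c.1 ρ → M.sys.U ρ ⊆ V → Res b δ γ f c ρ (v ρ) (k ρ))
    (cyl : ∀ a ∈ cylW c, ∀ e, (M.sys.w a).half e ⊆ V → Fz κ (lam ⊕ lam) 8 (jX J a) f (γ a) δ ∧
      (jX J a).bg.Ix (spO f univ) (cy (γ a)) 8 δ (w a))
    (u : M.Up d c) (hd : d.1 = c.1 \ M.sys.inn π) (hπ : M.sys.Piece d.1 π) (hV : M.sys.U π ⊆ V) :
    Res b δ γ f d π (∑ᶠ ρ ∈ Ins c π, v ρ - ∑ᶠ a ∈ c.1 ∩ M.sys.inn π, (w a : ℝ))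
      (∑ᶠ ρ ∈ Ins c π, k ρ) := by
  have := M.con
  induction e : (c.1 ∩ M.sys.inn π).ncard using Nat.strong_induction_on generalizing π d with
  | _ N ih =>
  obtain ⟨C0, C1⟩ := Hp13.Cmb.cmb X.M A M.sys c.1 d.1 π c.2 u.1 hπ
  rcases (c.1 ∩ M.sys.inn π).eq_empty_or_nonempty with e0 | ⟨a, ha⟩
  · obtain rfl : d = c := Subtype.ext (hd.trans (sdiff_eq_left.2 (disjoint_iff_inter_eq_empty.2 e0)))
    rw [e0, Ins, (C0 e0).2, finsum_mem_singleton, finsum_mem_singleton, finsum_mem_empty, sub_zero]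
    exact base π hπ hV
  obtain ⟨ρ, k1, k2, k3, k4, k5, k6, k7, k8, -⟩ := C1 a ha
  let D : Bool → M.Cl := fun e => ⟨c.1 \ M.sys.inn (ρ e), c.2.mono sdiff_subset⟩
  have sub : ∀ e, insert a d.1 ⊆ (D e).1 := fun e a' k =>
    ⟨k.elim (fun k => k ▸ ha.1) (u.1 ·), (k1 e).1.not_inn a' k⟩
  have up : ∀ e, M.Up d (D e) := fun e => ⟨(subset_insert _ _).trans (sub e), fun a' k => u.2 a' k.1⟩
  have pc : ∀ e, M.sys.Piece (D e).1 (ρ e) := fun e =>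
    ⟨(k1 e).1.toIsReg, (k1 e).1.bd_subset.trans (sub e), fun _ k => k.2⟩
  have R := fun e => ih _ (e := rfl) (d := D e) (π := ρ e) (by
      rw [← ‹_ = N›]
      refine ncard_lt_ncard ⟨fun a' k => k6.ge (.inr ?_), fun k => k8 e (k ha).2⟩ (toFinite _)
      cases e; exacts [.inl k, .inr k])
    ⟨sdiff_subset, fun a' k p => (up e).1 (u.2 a' k p)⟩ rfl (pc e)
    (((k1 e).2.2.le.trans inter_subset_left).trans hV)
  have hc := cyl_of u ⟨ha.1, fun k => (hd.le k).2 ha.2⟩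
  have := step L hJ hW hΛ hm h0 h1 u hd hπ ha (up false) (up true) (pc false) (pc true)
    (k1 _).2.1 (k1 _).2.1 (k1 _).2.2 (k1 _).2.2 (fun a' e k => (k2 a' e k).trans Bool.exists_bool) k3
    (fun a' k ne => ((k6.le ⟨k.1, by_contra fun k' => k.2 (hd.ge ⟨k.1, k'⟩)⟩).resolve_left ne).imp
      (fun l l' => l'.2 l.2) fun l l' => l'.2 l.2)
    (fun a' k => (em _).symm.imp (⟨k, ·⟩) fun l => ⟨k, disjoint_left.1 k7 l⟩)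
    (fun i => (cyl _ ⟨u.1 i.1.1.2.1, i.1.1.2.2⟩ _ ((hπ.adj _ _ (EdP.eq i)).trans hV)).1)
    (cyl a hc true ((inter_subset_left.trans ha.2.2.1).trans hV)).2 (R false) (R true)
  rw [Ins, k4, k6, finsum_mem_union k5 (toFinite _) (toFinite _),
    finsum_mem_union k5 (toFinite _) (toFinite _), finsum_mem_insert _
      (fun k => k.elim (fun k => k8 _ k.2) fun k => k8 _ k.2) (toFinite _), finsum_mem_union
      (k7.mono inter_subset_right inter_subset_right) (toFinite _) (toFinite _)]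
  convert this using 1
  ring

omit hW hΛ hm in
theorem base (pj : PJ J c) (sp : SplAt J c δ) {y : J.Obc c} (hπ : M.sys.Piece c.1 π) (e : y.s = b.s)
    (g : Go δ y {π}) (hF : ∀ (a : cylW c) β f, Rdc90.Bs (J.xs a).D β → Fz κ (lam ⊕ lam) 8 (jX J a) f β δ)
    (hγ : ∀ a ∈ cylW c, ∀ e, π a = some e →
      Rdc90.Bs (J.xs a).D (γ a) ∧ (J.xs a).D.Eqv (γ a) (y.β a e)) :
    Res b δ γ f c π (ia δ y π + bif f then (idr δ y π : ℝ) else 0) (y.kap (W.pc c π)) := by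
  obtain rfl : b = g.bp := by cases b; cases e; rfl
  have hP : ∀ ρ ∈ ({π} : Set _), M.sys.Piece c.1 ρ := fun _ h => h ▸ hπ
  have hs : (bif f then {π} else ∅ : Set (Reg A)) ⊆ {π} := by cases f <;> simp
  obtain ⟨x, k1, k2, k3⟩ := toIx hJ hP hs h0 h1 g (Ixc61.chStmt (by norm_num)
    (fun _ _ _ _ _ X => X.fred) Top36.kapStmt) (fun a ha => (pj.nil a ha).1)
    (fun i hi f => hF _ _ f (g.bs i hi)) (sp.ex y _ _ hP hs g)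
  have o := jS_ok (b := g.bp) hJ
  refine ⟨_, jS _, x, ix δ y {π} (bif f then {π} else ∅), o, ⟨k1.1, fun i => ?_⟩, ?_, ?_,
    (k3 _ (o.ok hπ true).cl subset_rfl).trans (congrArg _ (un_one _ _ _))⟩
  · obtain ⟨l1, l2⟩ := hγ _ i.1.1.2 _ (EdP.eq i)
    exact L.std.2 _ (jBG g.bp {π}) _ _ _ _ (jX_ok hJ _) (o.ok hπ false) k1.1 (k1.2 i) l1.adm
      (eqv_symm l1.ok l1.adm (g.bs _ i.2).adm l2)
  · rwa [show W.un c _ = spO f (W.un c {π}) by cases f; exacts [biUnion_empty _, rfl]] at k2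
  · cases f <;> simp [ix]

end ind

section top
open G75
variable {Lm : LM κ lam} {S : Scene Lm} {i : S.L} {W : World S.M} {Λ : Lns W (S.N i)}
  {J : Job Wi Λ A' H r n} {c : S.M.Cl} (L : IxL κ (lam ⊕ lam) 8) (hW : W.Nrm) (hΛ : Λ.Nrm)
include L hW hΛ

/-- the sums over a region which is bounded by pinch walls -/
theorem top (hJ : J.OK) (hm : cylW c ⊆ J.m.1) {c₀ : S.M.Cl} {π : Reg S.A} {b : Bp J c} {δ γ f}
    (h0 : 0 < δ) (h1 : δ ≤ dl0) (hc₀ : c₀.1 = {a ∈ c.1 | S.M.pin a}) (hπ₀ : S.M.sys.Piece c₀.1 π)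
    {β sg l2} (nb : S.Nb i (S.M.sys.U π) β sg l2) {v k : Reg S.A → ℝ} {w : S.A → ℤ}
    (base : ∀ ρ, S.In c π ρ → Res b δ γ f c ρ (v ρ) (k ρ))
    (cyl : ∀ a ∈ cylW c ∩ S.M.sys.inn π, Fz κ (lam ⊕ lam) 8 (jX J a) f (γ a) δ ∧
      (jX J a).bg.Ix (spO f univ) (cy (γ a)) 8 δ (w a)) :
    (∃ m : ℤ, ∑ᶠ ρ ∈ {ρ | S.In c π ρ}, k ρ = (l2 - sg) / 4 + m) ∧
      ∑ᶠ ρ ∈ {ρ | S.In c π ρ}, v ρ = (bif f then 6 else 8) * ∑ᶠ ρ ∈ {ρ | S.In c π ρ}, k ρ - 3 * β +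
        (bif f then (l2 - sg) / 2 else 0) + ∑ᶠ a ∈ cylW c ∩ S.M.sys.inn π, (w a : ℝ) := by
  have := S.M.con
  let d : S.M.Cl := ⟨c.1 \ S.M.sys.inn π, c.2.mono sdiff_subset⟩
  have pin : ∀ a ∈ Sys.bd π, a ∈ c.1 ∧ S.M.pin a := fun a k => hc₀.le (hπ₀.bd_subset k)
  have u : S.M.Up d c := ⟨sdiff_subset, fun a k p => ⟨k, hπ₀.not_inn a (hc₀.ge ⟨k, p⟩)⟩⟩
  have hπ : S.M.sys.Piece d.1 π :=
    ⟨hπ₀.toIsReg, fun a k => ⟨(pin a k).1, fun k' => k k'.1⟩, fun _ k => k.2⟩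
  obtain ⟨τ, s, x, m, o, st, k3, k4, e1⟩ := ind L hJ hW hΛ hm h0 h1 (fun ρ h2 h3 => base ρ ⟨h2, h3⟩)
    (fun a ha e he => cyl a ⟨ha, by_contra fun k =>
      let ⟨_, k'⟩ := (S.M.sys.w a).ne e
      disjoint_left.1 (hπ.toIsReg.outer (by_contra fun l => ha.2 (pin a l).2) (fun a' l =>
        c.2 ha.1 (pin a' l).1 fun l' => ha.2 (l' ▸ (pin a' l).2)) k).1 (he k') k'.1⟩) u rfl hπ subset_rfl
  have : IsEmpty (s.bg π).A := ⟨fun i => i.1.1.2.2 (pin _ (Sys.mem_bd_of (EdP.eq i))).2⟩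
  obtain ⟨⟨m', k1⟩, k2⟩ := clo L (o.ok hπ)
    ((isConnected_pc _ hπ).nonempty.mono (un_one W.toCaps d π).ge) st.1 h0 h1
  obtain ⟨r1, r2⟩ := Adc42.root κ lam Lm S i W Λ J.m d π (J.Θ b.s) s.F β sg l2 hπ
    (fun a k => (pin a k).2) o.vol o.P o.o nb
  rw [← un_one] at r1 r2
  have tA : (s.bg π).tA = -3 * β := r1
  have tD : (s.bg π).tD (W.un d {π}) = (l2 - sg) / 2 := r2
  rw [show {ρ | S.In c π ρ} = Ins c π from rfl, ← e1]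
  refine ⟨⟨m', k1.trans (by rw [tD]; ring)⟩, ?_⟩
  rw [k2 f m k3, BG.top, tA, show c.1 ∩ S.M.sys.inn π = cylW c ∩ S.M.sys.inn π from ext fun a =>
    ⟨fun k => ⟨cyl_of u ⟨k.1, fun k' => k'.2 k.2⟩, k.2⟩, fun k => ⟨k.1.1, k.2⟩⟩] at k4
  cases f
  · simp only [spO, cond, BG.kap, BG.tD, Measure.restrict_empty, integral_zero_measure] at k4 ⊢
    linear_combination -k4
  · simp only [spO, cond, tD] at k4 ⊢
    linear_combination -k4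

/-- **LEAF ADD** -/
theorem add : Rf65.Add J c := fun hJ pj => by
  choose ε q I using fun a : cylW c => Inv14.pInv κ (lam ⊕ lam) (k := 8) (by norm_num) (jX J a)
    (jX_ok hJ a) (pj.nil a a.2).1 (pj.py a a.2)
  obtain ⟨δ₀, p, h⟩ := mem_nhdsGT_iff_exists_Ioc_subset.1
    ((eventually_all.2 fun a => Ioc_mem_nhdsGT (q a)).and (Ioc_mem_nhdsGT dl0_pos))
  refine ⟨δ₀, p, fun δ hδ sp σ hσ s hs c₀ π hc₀ hπ₀ β sg l2 nb y γ hy => ?_⟩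
  obtain ⟨I', h0, h1⟩ := h hδ
  replace I := fun a => I a δ (I' a)
  have par := hJ.par σ hσ s hs.1
  let b : Bp J c := ⟨s, ⟨par, hs.2.ge⟩, fun a ha => (par.1 a).2.lt_of_ne fun e => ha.1 (hs.2.le e)⟩
  have hm : cylW c ⊆ J.m.1 := fun a ha =>
    let ⟨_, k, _⟩ := hJ.inf σ hσ s hs.1 a (hs.2.ge ha.1); hJ.mem _ _ k ha.2
  have R := fun f => top L hW hΛ hJ hm (b := b) h0 h1 hc₀ hπ₀ nb
    (w := fun a => (dz (J.xs a).D (γ a) : ℤ) - dh (J.xs a).D (γ a))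
    (fun ρ k => base L hJ h0 h1 pj sp k.1 (hy ρ k).1 (hy ρ k).2.1 (fun a β f k => (I a β f k).1)
      (hy ρ k).2.2)
    fun a ha => (exists_in (c := c) (fun _ k => (hc₀.le k).1) hπ₀ ha.1.1 (e := true)
      (inter_subset_left.trans ha.2.2.1)).elim fun ρ k =>
        I ⟨a, ha.1⟩ _ f ((hy ρ k.1).2.2 a ha.1 _ k.2).1
  have r2 := (R false).2
  have r3 := (R true).2
  simp only [cond, add_zero, Int.cast_sub, Int.cast_natCast] at r2 r3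
  rw [finsum_mem_add_distrib (toFinite _)] at r3
  exact ⟨r2, by linear_combination r3 - r2, (R true).1⟩

end top

end Crest.Agent.X212.Add46
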