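import Crest.Agent.X212.Ixc61.Ch
import Crest.Agent.X212.Mon62.Pb
import Crest.Agent.X212.Nk89.Geo
import Crest.Agent.X212.Rdc90.Defs
import Crest.Agent.X212.Ink3.Main

/-!
# Row 212, P-ADD (helper46): the unperturbed equations on literal references with flat limits
-/

set_option autoImplicit false
set_option linter.unusedSectionVars false
noncomputable section
open scoped Manifold ContDiff Topology
open MeasureTheory Set Function Filter

namespace Crest.Agent.X212.Add46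
open An M Cyf70 Mod61 Nk89 Nd18 Pj41 Map77 Rdc90 Eqv71

section cyl
variable {κ lam : Type} [Fintype κ] [Fintype lam] {Y : Mf 3} [CompactSpace Y.M]
  {D : YD Y.I Y.M κ lam} {β β' : YC Y.M κ lam}

theorem ad0_cy (h : D.Adm β) : Ad0 (cy β) D.B D.G := ⟨h.adm.ok, h.adm.conn, h.adm.sm, h.adm.pos⟩

theorem eqv_symm (hD : D.OK) (h : D.Adm β) (h' : D.Adm β') (e : D.Eqv β β') : D.Eqv β' β :=
  let ⟨_, _, e⟩ := e
  ⟨_, _, ceq_symm_id hD.B hD.G isOpen_univ (ad0_cy h) (ad0_cy h') e⟩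

theorem flt_eqv (hD : D.OK) (h : D.Adm β) (h' : D.Adm β') (e : D.Eqv β β') (f : Flt D β) :
    Flt D β' := fun x =>
  let ⟨_, _, e⟩ := e
  (((lg_refl hD.B hD.G isOpen_univ).of_ceq (ad0_cy h) (ad0_cy h') e).Fg (x := x) trivial).trans
    ((congrArg _ (f x)).trans (map_zero _))

theorem cls_mono {r : ℕ} {c : Cfg (Y.M × ℝ) (Option κ) lam r} {u ζ S S' k η}
    (h : D.Cls c β u ζ S k η) (o : IsOpen S') (s : S' ⊆ S) : D.Cls c β u ζ S' k η :=
  have s := prod_mono_right (s := (univ : Set Y.M)) s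
  ⟨o, ⟨h.m.su.mono s, fun x hx => h.m.uu x (s hx), fun x hx => h.m.uu' x (s hx),
    fun x hx => h.m.J x (s hx), fun x hx => h.m.ρ x (s hx), fun x hx => h.m.j x (s hx)⟩,
    fun a w j x hx => h.A a w j x (s hx), fun w j x hx => h.P w j x (s hx)⟩

theorem eZ_nil {N : ND Y.M lam} (h : Ink3.Nil N) : eZ N D = eq0 D.B D.G 0 0 0 := by
  rw [eZ, h.q1]
  exact sub_zero _

end cyl

variable {E : Type} [NormedAddCommGroup E] [NormedSpace ℝ E] [FiniteDimensional ℝ E]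
  [MeasurableSpace E] [BorelSpace E]
  {HM : Type} [TopologicalSpace HM] {I : ModelWithCorners ℝ E HM} [I.Boundaryless]
  {M : Type} [TopologicalSpace M] [ChartedSpace HM M] [IsManifold I ∞ M]
  [MeasurableSpace M] [T2Space M] [BorelSpace M] [SecondCountableTopology M]
  {κ lam : Type} [Fintype κ] [Fintype lam] {T : Type} [NormedAddCommGroup T] [NormedSpace ℝ T]
  {𝔉 : Mod61.Fam I M (Option κ) lam T} {δ R : ℝ} {r n m k : ℕ} {o : Ref 𝔉}

theorem elim_lim {Y : Mf 3} [CompactSpace Y.M] {D : YD Y.I Y.M κ lam}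
    {B : Base M (Option κ) lam} {G : Geo I M (Option κ) lam} {K : Nk D B G}
    {c : Cfg M (Option κ) lam r} {β : YC Y.M κ lam} {ζ : Circle} {d : ℝ} (hd : 0 < d) {b : Bool}
    (h : K.ELim d c β ζ (bif b then atTop else atBot)) :
    K.Lim c β ζ (bif b then atTop else atBot) := by
  obtain ⟨u, S, h1, h2, h3, h4⟩ := h
  refine ⟨u, fun k η hη => ?_⟩
  obtain ⟨C, hC⟩ := h4 k
  have t : Tendsto (fun s : ℝ => C * Real.exp (-d * |s|)) (bif b then atTop else atBot) (𝓝 0) := by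
    rw [← mul_zero C]
    refine (Real.tendsto_exp_atBot.comp (Tendsto.const_mul_atTop_of_neg (neg_neg_of_pos hd)
      ?_)).const_mul C
    cases b
    exacts [tendsto_abs_atBot_atTop, tendsto_abs_atTop_atTop]
  obtain ⟨S', k1, k2, k3⟩ : ∃ S' ∈ (bif b then atTop else atBot : Filter ℝ), IsOpen S' ∧
      ∀ s ∈ S', Ioo (s - 1) (s + 1) ⊆ S ∧ C * Real.exp (-d * |s|) ≤ η := by
    have := (t.eventually (eventually_le_nhds hη)).and h1
    cases b
    · obtain ⟨a, ha⟩ := eventually_atBot.1 this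
      exact ⟨_, Iio_mem_atBot (a - 1), isOpen_Iio, fun s hs => ⟨fun x hx =>
        (ha x (by linarith [hx.2, hs.out])).2, (ha s (by linarith [hs.out])).1⟩⟩
    · obtain ⟨a, ha⟩ := eventually_atTop.1 this
      exact ⟨_, Ioi_mem_atTop (a + 1), isOpen_Ioi, fun s hs => ⟨fun x hx =>
        (ha x (by linarith [hx.1, hs.out])).2, (ha s (by linarith [hs.out])).1⟩⟩
  have e : ∀ s : ℝ, s ∈ Ioo (s - 1) (s + 1) := fun s => ⟨by linarith, by linarith⟩
  have s : S' ⊆ S := fun x hx => (k3 x hx).1 (e x)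
  exact ⟨S', k1, s.trans h2, k2, (cls_mono h3 k2 s).m,
    fun a w j x hx => ((hC _ (k3 _ hx.2).1).A a w j x ⟨trivial, e _⟩).trans (k3 _ hx.2).2,
    fun w j x hx => ((hC _ (k3 _ hx.2).1).P w j x ⟨trivial, e _⟩).trans (k3 _ hx.2).2⟩

/-- the unperturbed equations are local -/
theorem eq0_rel {Y : Mf 3} [CompactSpace Y.M] {D : YD Y.I Y.M κ lam} {B : Base M (Option κ) lam}
    {G : Geo I M (Option κ) lam} {ψ : Y.M × ℝ → M} {O : Set (Y.M × ℝ)} (g : GRel D.B D.G B G ψ O)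
    {x : Y.M × ℝ} (hx : x ∈ O) {c : Cfg M (Option κ) lam r} {p ρ j W Φ}
    (hp : p x = c.m.p (ψ x)) (hρ : ∀ a, ρ a x = c.m.ρ a (ψ x)) (hj : j x = c.m.j (ψ x))
    (hW : ∀ a, ∀ᶠ y in 𝓝 x, W a y = c.W a (ψ y)) (hΦ : ∀ᶠ y in 𝓝 x, Φ y = c.Φ (ψ y)) {z} :
    (eq0 D.B D.G 0 0 0).D ⟨⟨c.m.N, c.m.J, p, ρ, j⟩, W, Φ, z⟩ x = (eq0 B G r n m).D c (ψ x) ∧
    (eq0 D.B D.G 0 0 0).C ⟨⟨c.m.N, c.m.J, p, ρ, j⟩, W, Φ, z⟩ x = (eq0 B G r n m).C c (ψ x) := by
  have e : (⟨c.m.N, c.m.J, p, ρ, j⟩ : Md _ _ _).pg x = c.m.pg (ψ x) := by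
    have : (⟨c.m.N, c.m.J, p, ρ, j⟩ : Md _ _ _).gS x = c.m.gS (ψ x) :=
      Submodule.ext fun ξ => by simp only [Md.gS, Submodule.mem_mk, AddSubmonoid.mem_mk,
        AddSubsemigroup.mem_mk, mem_ofPred_eq, hp, hρ, hj]
    unfold Md.pg
    congr 1
  have e' : D.B.sd x = B.sd (ψ x) := by
    funext s t
    simp only [Base.sd, Base.a2, Base.st, g.P _ _ x hx, g.o _ _ _ _ x hx]
  refine ⟨g.fr.dir hx hρ (fun a => (hW a).self_of_nhds) hΦ, ?_⟩
  simp only [eq0, Md.p2, Md.Fg, Md.mu, Md.q, e, e', hρ, hΦ.self_of_nhds, g.fr.curv hx hW]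

variable (X : Ends 𝔉 δ) (hl : X.Lit o R)
include hl

theorem eq_end {a : X.A} (y : Pnt o r) {h : (X.P a).D.Adm ((X.P a).sl o (R + 1) y.t)} {h0}
    (y' : Pnt (refZ T0 δ (O' := (X.P a).O' R) h h0) 0) {z : (X.P a).Y.M × ℝ} (hz : z ∈ (X.P a).H R)
    (e : ∀ᶠ x in 𝓝 z, y.α ((X.P a).K.ψ x) = y'.α x ∧ y.φ ((X.P a).K.ψ x) = y'.φ x) :
    (eq0 (X.P a).D.B (X.P a).D.G 0 0 0).D y'.cfg z = (𝔉.eq0 r n m y.t).D y.cfg ((X.P a).K.ψ z) ∧
    (eq0 (X.P a).D.B (X.P a).D.G 0 0 0).C y'.cfg z = (𝔉.eq0 r n m y.t).C y.cfg ((X.P a).K.ψ z) := by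
  have k := X.okP a
  have l := fun z => (hl.lit a).at y.ht (z := z)
  have ev := ((X.P a).isOpen_H R).eventually_mem hz
  refine eq0_rel (c := y.cfg) (k.gRel X.ok y.ht) (hl.le.trans_lt hz) (l z hz).1.symm
    (fun b => ((l z hz).2.1 b).symm) (l z hz).2.2.1.symm (fun b => (ev.and e).mono fun x hx => ?_)
    ((ev.and e).mono fun x hx => congrArg₂ (· + ·) (l x hx.1).2.2.2.2.symm hx.2.2.symm)
  have u := k.ψ_mem le_rfl (hl.le.trans_lt hx.1)
  refine .trans ?_ (End14.W_end k X.ok y.ht y.α u (y.pα X.ok _) b).symm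
  rw [← End14.W0_end X.ok k y.ht u, (l x hx.1).2.2.2.1, hx.2.1]
  refine (W_apply _ _ _ _).trans (congrArg₂ (· + ·) ?_ ?_)
  · rw [@Ref.A_eq _ _ _ _ _ _ _ _ _ _ _ _ _ _ _ _ _ _ _ _ _ _ (refZ T0 δ h h0) ⟨rfl⟩]
    refine .trans ?_ (h.adm.conn.cc.proj b x)
    simp [Mod61.Fam.W0, famZ, wtF, cst]
    rfl
  · rw [← idx_sum (y'.pα (X.okZ a R) x) b, map_sum]
    exact Finset.sum_congr rfl fun _ _ => (map_smul _ _ _).symm

/-- **LOC** for the unperturbed equations -/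
theorem loc_eq0 {a : X.A} (ha : X.Act a) {N : ND _ lam} (hN : Ink3.Nil N) {t : T} (h h0) :
    (X.P a).Loc o k δ R (𝔉.eq0 r n m) t h h0 (eZ N (X.P a).D) := fun b ρ hb ε _ => ⟨b, by
  rintro y y' rfl - - e
  have k := X.okP a
  have op := (X.P a).isOpen_H b
  have q := fun z (hz : z ∈ (X.P a).H b) =>
    eq_end (n := n) (m := m) X hl y y' (hb.trans_lt hz) ((op.eventually_mem hz).mono e)
  have z : ∀ {V : Type} [NormedAddCommGroup V] [NormedSpace ℝ V] {u : _ → V} {j : ℕ},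
      (∀ z ∈ (X.P a).H b, u z = 0) → NE (X.P a).D δ (X.P a).sg b j u ≤ ε :=
    fun hu => ((Gl67.N_congr op.measurableSet fun z hz => (op.eventually_mem hz).mono hu).trans
      Gl67.N_zero).trans_le zero_le
  rw [eZ_nil hN]
  refine ⟨z fun x hx => sub_eq_zero.2 ?_, z fun x hx => sub_eq_zero.2 ?_⟩
  · by_cases h' : (X.P a).K.ψ x ∈ 𝔉.Om'
    · exact (indicator_of_mem h' _).trans ((q x hx).1.symm.trans (indicator_of_mem
        ((k.mem_O' X.ok hl.le (hb.trans_lt hx) x).2 h') _).symm)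
    · exact (indicator_of_notMem h' _).trans (indicator_of_notMem
        (mt (k.mem_O' X.ok hl.le (hb.trans_lt hx) x).1 h') _).symm
  · exact (indicator_of_mem (ha (k.ψ_mem le_rfl ((hl.le.trans hb).trans_lt hx))) _).trans
      ((q x hx).2.symm.trans (indicator_of_mem (mem_univ _) _).symm)⟩

/-- **AFF** for the unperturbed equations -/
theorem aff_eq0 (h0 : o.Φ0 = 0)
    (hf : ∀ a, X.Act a → ∀ t ∈ 𝔉.Q, Flt (X.P a).D ((X.P a).sl o (R + 1) t)) :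
    Aff o (Fs 𝔉) r n m (𝔉.eq0 r n m) := by
  refine Mon62.aff_cs (adj_rem X.ok) (X.cov' R) fun y x hx => ?_
  have e : (bs y).cfg.Φ = 0 := (add_zero _).trans h0
  refine ⟨indicator_apply_eq_zero.2 fun _ => ?_, indicator_apply_eq_zero.2 fun hO => ?_⟩
  · simp [Mod61.Fam.eq0, eq0, e, Wz78.dir, Wz78.nab, Sob92.dv_const, Pi.zero_def]
    rfl
  obtain ⟨a, ha⟩ := mem_iUnion.1 (not_not.1 hx)
  obtain ⟨z, hz, rfl⟩ := (X.okP a).exists_ψ ha
  have k := hf a (End14.act_of X (End.U_mono _ hl.le ha) hO) _ y.ht z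
  have l := fun z => (hl.lit a).at y.ht (z := z)
  have ev := ((X.P a).isOpen_H R).eventually_mem hz
  refine (eq0_rel (c := (bs y).cfg) (z := 0) (Φ := 0)
    (p := fun z => ((X.P a).sl o (R + 1) y.t).m.p z.1)
    (ρ := fun b z => ((X.P a).sl o (R + 1) y.t).m.ρ b z.1)
    (j := fun z => ((X.P a).sl o (R + 1) y.t).m.j z.1) ((X.okP a).gRel X.ok y.ht) (hl.le.trans_lt hz)
    (l z hz).1.symm (fun b => ((l z hz).2.1 b).symm) (l z hz).2.2.1.symm
    (fun b => ev.mono fun x hx => ((l x hx).2.2.2.1 b).symm)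
    (.of_forall fun x => (congrFun e _).symm)).2.symm.trans ?_
  refine sub_eq_zero.2 (((congrArg _ k).trans (map_zero _)).trans ?_)
  simp [Md.mu, Md.q, rk1, ← Pi.zero_def]

/-- uniqueness of limits -/
theorem eqv_lim {a : X.A} (ha : X.Act a) {y : Pnt o r} {c : Cfg M (Option κ) lam r}
    (hc : Adm0 c 𝔉.B (𝔉.G y.t)) (e : Nk89.Rep c y) {β} (hβ : (X.P a).D.Adm β) {ζ : Circle}
    (L : (X.P a).K.Lim c β ζ (X.P a).l) : (X.P a).D.Eqv ((X.P a).sl o (R + 1) y.t) β := by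
  obtain ⟨v, hv⟩ := L
  refine Ixc61.eqv_sl X hl ha rfl hc e hβ (v := v) (ξ := ζ) fun k η hη => ?_
  obtain ⟨S, k1, -, k3⟩ := hv k η hη
  have k4 : ∀ᶠ s in atTop, (X.P a).sg * s ∈ S := by
    rcases End3.sg_cases (X.P a) with k | k <;> simp only [k.2, one_mul, neg_one_mul]
    · exact k.1 ▸ k1
    · exact tendsto_neg_atTop_atBot (k.1 ▸ k1)
  obtain ⟨s₀, k5⟩ := eventually_atTop.1 k4
  filter_upwards [eventually_ge_atTop (max s₀ X.R + 1)] with s hs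
  have k7 : ∀ x ∈ Ioo ((X.P a).sg * s - 1) ((X.P a).sg * s + 1), max s₀ X.R < (X.P a).sg * x :=
    fun x hx => by
      rcases (X.P a).sg_cases with e | e <;> rw [e] at hx ⊢ <;> linarith [hx.1, hx.2]
  exact Bki64.cl_of_cls (c := (X.P a).K.pb (noz c)) hβ ((End14.admOn_pb X.ok (X.okP a) y.ht hc).mono
    fun z hz => (le_max_right _ _).trans_lt (k7 _ hz.2)) (cls_mono ⟨k3.op, k3.m, k3.A, k3.P⟩
      isOpen_Ioo fun x hx => (X.P a).sg_sg x ▸ k5 _ ((le_max_left _ _).trans (k7 x hx).le))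

end Crest.Agent.X212.Add46
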