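import Crest.Agent.X212.Add46.Eb
import Crest.Agent.X212.Add46.Ch
import Crest.Agent.X212.Rf65.Px
import Crest.Agent.X212.Inv14.Defs

/-!
# Row 212, P-ADD (helper46): the parts of a job as backgrounds with ends, the bridge to `BG.Ix`
-/

set_option autoImplicit false
set_option linter.unusedSectionVars false
noncomputable section
open scoped Manifold ContDiff Topology
open MeasureTheory Set Function Filter

namespace Crest.Agent.X212.Add46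
open An M Nd18 Mod61 Nk89 Cht98 Rf65 Rdc90

variable {Wi : Type} {X : Mf 4} {A κ lam : Type} [Fintype A] [Fintype κ] [Fintype lam]
  [DecidableEq lam] {M : Mark X A κ} {W : World M} {N : ML M lam} {Λ : Lns W N}
  {A' h : Type} [Fintype A'] [DecidableEq A'] [Fintype h] {r n : ℕ}
  {J : Job Wi Λ A' h r n} {c : M.Cl} {P P' : Set (Reg A)} {δ : ℝ}

variable (J) in
/-- the cross-section of a wall -/
@[reducible] def jX (a : A) : XD κ (lam ⊕ lam) := ⟨(J.xs a).Y, (J.xs a).D, (J.xs a).N⟩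

theorem jX_ok (hJ : J.OK) (a : A) : (jX J a).OK := ⟨(hJ.xs a).1.yd, (hJ.xs a).2, J.conn_xs a⟩

theorem act (b : Bp J c) (i : Ed c) : Act J.m c i.1 (some i.2) (J.Θ b.s) :=
  ⟨i.1.2.2, b.br, b.O, i.1.2.1⟩

/-- `Z c` with its ends -/
@[reducible] def jE (b : Bp J c) : EB κ (lam ⊕ lam) (W.Z c) :=
  ⟨J.B c, J.G c b.s, Ed c, fun i => ⟨jX J i.1, J.K c i.1 (some i.2) _ (act b i), !i.2⟩⟩

instance (c : M.Cl) (P : Set (Reg A)) : Fintype (EdP c P) := Fintype.ofFinite _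

/-- the pieces `P` with their ends -/
abbrev jBG (b : Bp J c) (P : Set (Reg A)) : BG κ (lam ⊕ lam) (W.Z c) :=
  (jE b).bg (W.un c P) (Subtype.val : EdP c P → Ed c)

theorem jE_ok (hJ : J.OK) (b : Bp J c) : (jE b).OK :=
  have k := endIn_J (θ := fun _ : T0 => b.s) hJ b.br b.O contDiff_const isClopen_empty
    isClopen_empty subset_rfl
  ⟨fun _ => jX_ok hJ _, Λ.B_ok _ _, Λ.G_ok _ b.O, fun i => ⟨(k.st i).p, (k.st i).q⟩, k.dis, k.cov⟩

theorem tgt_pc (hJ : J.OK) (b : Bp J c) (i : Ed c) {π : Reg A} (hπ : M.sys.Piece c.1 π)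
    (e : π i.1 = some i.2) : ((jE b).E i).K.ψ.target ⊆ W.pc c π := fun _ hz =>
  ((jE b).E i).K.ψ.right_inv hz ▸ (hJ.nk _ _ _ _ _).end_mem (act b i) hπ e
    (((jE b).E i).K.mem_src.1 (((jE b).E i).K.ψ.map_target hz))

theorem jE_ls (hJ : J.OK) (b : Bp J c) (hP : ∀ π ∈ P, M.sys.Piece c.1 π) :
    (jE b).Ls (W.un c P) (Subtype.val : EdP c P → Ed c) := by
  have := M.con
  refine ⟨Subtype.val_injective, fun ⟨i, π, h1, h2⟩ z hz =>
    mem_un.2 ⟨π, h1, tgt_pc hJ b i (hP π h1) h2 hz⟩, fun i hi => disjoint_left.2 fun z h1 h2 => ?_⟩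
  obtain ⟨π, h3, h4⟩ := mem_un.1 h2
  obtain ⟨π', h5, h6⟩ := (Sys.existsUnique_adj c.2 i.1.2.1 i.2).exists
  obtain rfl := Cyl58.pc_unique W.toCaps (hP π h3) h5 h4 (tgt_pc hJ b i h5 h6 h1)
  exact hi ⟨⟨i, π, h3, h6⟩, rfl⟩

variable (hJ : J.OK) (hP : ∀ π ∈ P, M.sys.Piece c.1 π) (hs : P' ⊆ P)
include hJ hP hs

theorem endIn_P (b : Bp J c) :
    EndIn (jEnd (W.un c P) (W.un c P') (fun _ : T0 => b.s) b.br b.O) :=
  endIn_J hJ b.br b.O contDiff_const (Job.isClopen_un hP) (Job.isClopen_un fun π k => hP π (hs k))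
    (biUnion_subset_biUnion_left hs)

theorem jBG_ok (b : Bp J c) : (jBG b P).OK (W.un c P') :=
  (jE_ok hJ b).ok (Job.isClopen_un hP) (Job.isClopen_un fun π k => hP π (hs k))
    (biUnion_subset_biUnion_left hs) (jE_ls hJ b hP)

/-- the family of `Rf65.Ix` -/
def jGR (b : Bp J c) (h0 : 0 < δ) (h1 : δ ≤ dl0) : (jBG b P).GR (W.un c P') δ :=
  EB.gr (e := jE b) (endIn_P hJ hP hs b) h0 h1 (jE_ok hJ b).X (jE_ls hJ b hP) (fun _ => rfl) 0 b.O
    rfl fun _ _ _ => rfl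

omit hJ hP hs in
/-- the base parameter of `y` -/
@[reducible] def _root_.Crest.Agent.X212.Rf65.Go.bp {y : J.Obc c} (g : Go δ y P) : Bp J c :=
  ⟨y.s, g.br, g.O⟩

variable (h0 : 0 < δ) (h1 : δ ≤ dl0) {y : J.Obc c} (g : Go δ y P)
include h0 h1

omit hJ hP hs h1 in
theorem lim_go (i : EdP c P) : ((jBG g.bp P).E i).K.Lim y.x.con (y.β i.1.1 i.1.2) 1
    (bif ((jBG g.bp P).E i).out then atTop else atBot) :=
  let ⟨_, k1, k2⟩ := g.lim i.1 i.2 (act g.bp i.1)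
  elim_lim (h0.trans k1) (by obtain ⟨⟨_, _ | _⟩, _⟩ := i <;> exact k2)

/-- the slices of a literal reference which represents `y` are its limits -/
theorem eqv_go {o : Ref (g.bp.Fm P P' (fun _ : T0 => y.s) δ)} {R : ℝ} {x : Pnt o 0} (hR : 5 ≤ R)
    (l : ∀ i, (g.bp.En P P' _ δ i).Lit o R) (e : Nk89.Rep y.x.con x) (i : EdP c P) (t : T0) :
    (J.xs i.1.1).D.Eqv ((g.bp.En P P' _ δ i).sl o (R + 1) t) (y.β i.1.1 i.1.2) :=
  Subsingleton.elim x.t t ▸ eqv_lim (jGR hJ hP hs g.bp h0 h1).X ⟨hR, l⟩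
    ((jGR hJ hP hs g.bp h0 h1).f i).2 g.adm e (g.bs _ i.2).adm (lim_go h0 g i)

/-- the unperturbed equations on a literal reference are a chart -/
theorem jCh (hN : ∀ a ∈ cylW c, Ink3.Nil (J.xs a).N)
    (hF : ∀ i ∈ EdP c P, ∀ f, Fz κ (lam ⊕ lam) 8 (jX J i.1) f (y.β i.1 i.2) δ)
    {o : Ref (g.bp.Fm P P' (fun _ : T0 => y.s) δ)} {R : ℝ} {x : Pnt o 0} (hR : 5 ≤ R)
    (l : ∀ i, (g.bp.En P P' _ δ i).Lit o R) (z : o.Φ0 = 0) (e : Nk89.Rep y.x.con x) :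
    (jGR hJ hP hs g.bp h0 h1).Ch 8 o R ((g.bp.Fm P P' (fun _ : T0 => y.s) δ).eq0 0 0 0) := by
  let G := jGR hJ hP hs g.bp h0 h1
  have hl : G.X.Lit o R := ⟨hR, l⟩
  have q := eqv_go hJ hP hs h0 h1 g hR l e
  refine ⟨hl, aff_eq0 G.X hl z fun a ha t ht => ?_, fun i h h' => ⟨?_, ?_⟩⟩
  · obtain ⟨i, hi⟩ := G.f.surjective ⟨a, ha⟩
    obtain rfl : i.1 = a := congrArg Subtype.val hi
    have k := (hl.lit i.1).adm G.X.ok (G.X.okP _) hl.le ht
    have b := g.bs _ i.2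
    exact flt_eqv b.ok b.adm k (eqv_symm b.ok k b.adm (q i t)) b.flat
  · classical
    have b := g.bs _ i.2
    refine hF _ i.2 (decide ((G.X.P i.1).U R ⊆ W.un c P')) _ h _ h' ?_ ?_
    · by_cases k : (G.X.P i.1).U R ⊆ W.un c P'
      · rw [decide_eq_true k]; exact eq_univ_of_forall fun _ => k
      · rw [decide_eq_false k]; exact eq_empty_of_forall_notMem fun _ => k
    · convert eqv_symm b.ok h b.adm (q i 0) using 1
      have := funext b.zr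
      generalize y.β i.1.1 i.1.2 = β at this
      obtain ⟨m, w, Φ, z⟩ := β
      obtain rfl : Φ = fun _ => 0 := this
      congr 1
      · exact Bool.cond_self _ _
      · exact Subsingleton.elim _ _
  · exact loc_eq0 G.X hl (G.f i).2 (hN _ i.1.1.2) h h'

/-- **the bridge** -/
theorem toIx (hC : ChStmt (W.Z c) κ (lam ⊕ lam) 8) (hN : ∀ a ∈ cylW c, Ink3.Nil (J.xs a).N)
    (hF : ∀ i ∈ EdP c P, ∀ f, Fz κ (lam ⊕ lam) 8 (jX J i.1) f (y.β i.1 i.2) δ) {d : ℤ}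
    (hd : Rf65.Ix δ y P P' d) : ∃ c₀ : C0 (W.Z c) κ (lam ⊕ lam),
      (jBG g.bp P).Std c₀ (fun i => y.β i.1.1 i.1.2) ∧ (jBG g.bp P).Ix (W.un c P') c₀ 8 δ d ∧
      ∀ O, IsClopen O → O ⊆ W.un c P → (jBG g.bp P).kap O c₀ = y.kap O := by
  obtain ⟨⟨s, br, hO⟩, o, R, x, e, hR, l, z, rp, hd⟩ := hd
  obtain rfl : s = y.s := e
  exact hC _ _ δ (jGR hJ hP hs g.bp h0 h1) o R 0 0 0 _ x y.x.con _ d (jBG_ok hJ hP hs _)
    (jCh hJ hP hs h0 h1 g hN hF hR l z rp) (Subsingleton.elim (α := T0) _ _) rp hd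
    (fun i => ⟨(g.bs _ i.2).adm, 1, lim_go h0 g i⟩) g.adm fun _ _ => rfl

end Crest.Agent.X212.Add46
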