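import Crest.Agent.X212.Add46.Main
import Crest.Agent.X212.Hd82.Defs

/-!
# Row 212, RAD (helper46): additivity for standard configurations
-/

set_option autoImplicit false
noncomputable section

namespace Crest.Agent.X212.Add46
open An M Nd18 G75 Hd82

/-- **LEAF RAD** -/
theorem rad {κ lam : Type} [Fintype κ] [Fintype lam] [DecidableEq lam] (Lm : LM κ lam)
    (L : IxL κ (lam ⊕ lam) 8) : RadStmt Lm :=
  fun _ _ _ _ _ _ _ _ _ _ _ _ _ _ _ b _ _ _ _ R nb x _ hx _ _ _ _ h0 h1 hF hd =>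
    top L R.hW R.hΛ R.ok R.hm h0 h1 R.c0 R.pc nb (fun ρ k => ⟨_, jS b, x ρ, _, jS_ok R.ok, hx ρ k,
      hd ρ k, rfl, congrArg (BG.kap _ · _) (un_one _ _ _)⟩) hF

end Crest.Agent.X212.Add46
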