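import Crest.Agent.X212.Add46.Rel
import Crest.Agent.X212.Hd82.Defs

/-!
# Row 212, SPX (helper46): the index is the sum of the indices of the pieces
-/

set_option autoImplicit false
set_option linter.unusedSectionVars false
noncomputable section
open Set Function

namespace Crest.Agent.X212.Add46
open An M Nd18 Rf65 Cht98

variable {Wi : Type} {X : Mf 4} {A κ lam : Type} [Fintype A] [Fintype κ] [Fintype lam]
  [DecidableEq lam] {M : Mark X A κ} {W : World M} {N : ML M lam} {Λ : Lns W N}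
  {A' H : Type} [Fintype A'] [DecidableEq A'] [Fintype H] {r n : ℕ}
  {J : Job Wi Λ A' H r n} {c : M.Cl} {b : Bp J c} {P Q R : Set (Reg A)} {f : Bool} {δ : ℝ}
  {x : C0 (W.Z c) κ (lam ⊕ lam)} (L : IxL κ (lam ⊕ lam) 8) (hJ : J.OK)

/-- the ends of fewer pieces -/
@[reducible] def inc (h : Q ⊆ P) (i : EdP c Q) : EdP c P := ⟨i.1, i.2.imp fun _ k => ⟨h k.1, k.2⟩⟩

section
include hJ

theorem okP (hP : ∀ π ∈ P, M.sys.Piece c.1 π) (f : Bool) : (jBG b P).OK (spO f (W.un c P)) :=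
  (jE_ok hJ b).ok (Job.isClopen_un hP) (Glc56.clopen_spO f (Job.isClopen_un hP))
    (by cases f; exacts [empty_subset _, subset_rfl]) (jE_ls hJ b hP)

variable (hQ : ∀ π ∈ Q, M.sys.Piece c.1 π) (h : Q ⊆ P)

variable (b) in
/-- the identity over fewer pieces -/
def gpS : GP (jBG b P) (jBG b Q) where
  φ := .ofSet _ (Job.isClopen_un hQ).2
  U x i j := (J.B c).P i j x
  v := (J.B c).l
  g := Eqv71.LG.geq (φ := .ofSet _ (Job.isClopen_un hQ).2) (Eqv71.lg_refl (jE_ok hJ b).B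
    (jE_ok hJ b).G (Job.isClopen_un hQ).2) contMDiffOn_id MeasureTheory.Measure.map_id
  sub := biUnion_subset_biUnion_left h
  sub' := subset_rfl

theorem gpS_mt (i : EdP c Q) : (gpS b hJ hQ h).Mt (inc h i) i :=
  ⟨_, _, _, _, rfl, rfl, 0, 0, fun z hz =>
    have k := ((jE b).E i.1).K.mem_src.2 ((jE_ok hJ b).ht i.1 le_rfl hz.2)
    ⟨(jE_ls hJ b hQ).sub i (((jE b).E i.1).K.ψ.map_source k), by rw [add_zero]; rfl,
      funext₂ fun j l => ((jE b).E i.1).K.P j l z k, ((jE b).E i.1).K.l z k⟩⟩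

theorem gpS_sp : (gpS b hJ hQ h).Sp (spO f (W.un c P)) (spO f (W.un c Q)) := fun _ k => by
  cases f
  exacts [Iff.rfl, iff_of_true k ((gpS b hJ hQ h).sub k)]

theorem gpS_ce (hx : x.Adm (J.B c) (J.G c b.s)) : (gpS b hJ hQ h).Ce x x x.m.p 1 :=
  Eqv71.ceq_refl (jE_ok hJ b).B (jE_ok hJ b).G hx (Job.isClopen_un hQ).2

end

include L hJ

theorem two (hP : ∀ π ∈ Q ∪ R, M.sys.Piece c.1 π) (dj : Disjoint Q R)
    (hx : x.Adm (J.B c) (J.G c b.s)) {d d₃ d₄ : ℤ}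
    (h : (jBG b (Q ∪ R)).Ix (spO f (W.un c (Q ∪ R))) x 8 δ d)
    (h₃ : (jBG b Q).Ix (spO f (W.un c Q)) x 8 δ d₃) (h₄ : (jBG b R).Ix (spO f (W.un c R)) x 8 δ d₄) :
    d = d₃ + d₄ := by
  have := M.con
  have hQ := fun π (k : π ∈ Q) => hP π (.inl k)
  have hR := fun π (k : π ∈ R) => hP π (.inr k)
  have bij : Bijective (Sum.elim (inc (c := c) (subset_union_left (s := Q) (t := R)))
      (inc subset_union_right)) := by
    refine ⟨Injective.sumElim (fun _ _ k => Subtype.ext (congrArg (·.1) k))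
      (fun _ _ k => Subtype.ext (congrArg (·.1) k)) ?_, ?_⟩
    · rintro ⟨i, π, h1, h2⟩ ⟨j, ρ, h3, h4⟩ k
      obtain rfl : i = j := congrArg (·.1) k
      exact disjoint_left.1 dj h1 ((Sys.existsUnique_adj c.2 i.1.2.1 i.2).unique ⟨hR _ h3, h4⟩
        ⟨hQ _ h1, h2⟩ ▸ h3)
    · rintro ⟨i, π, h1 | h1, h2⟩
      exacts [⟨.inl ⟨i, π, h1, h2⟩, rfl⟩, ⟨.inr ⟨i, π, h1, h2⟩, rfl⟩]
  refine L.spl _ _ _ _ _ _ (gpS b hJ hQ subset_union_left) (gpS b hJ hR subset_union_right)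
    (Equiv.ofBijective _ bij).symm _ _ _ x x x _ _ _ _ δ _ _ _ (okP hJ hP f) (okP hJ hQ f)
    (okP hJ hR f) (biUnion_union _ _ _).symm (disjoint_left.2 fun z k k' => ?_) rfl rfl (fun a => ?_)
    (gpS_sp _ _ _) (gpS_sp _ _ _) hx hx hx (gpS_ce _ _ _ hx) (gpS_ce _ _ _ hx) h h₃ h₄
  · obtain ⟨π, h1, h2⟩ := mem_un.1 k
    obtain ⟨ρ, h3, h4⟩ := mem_un.1 k'
    exact disjoint_left.1 dj h1 (Cyl58.pc_unique _ (hR _ h3) (hQ _ h1) h4 h2 ▸ h3)
  · obtain ⟨j, rfl⟩ := bij.2 a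
    rw [Equiv.ofBijective_symm_apply_apply]
    rcases j with j | j <;> exact gpS_mt _ _ _ _

theorem exP (hP : ∀ π ∈ P, M.sys.Piece c.1 π) (h0 : 0 < δ) (h1 : δ ≤ dl0) {γ : ∀ i : Ed c, (jX J i.1).C}
    (hF : ∀ i ∈ EdP c P, Fz κ (lam ⊕ lam) 8 (jX J i.1) f (γ i) δ)
    (hx : (jBG b P).Std x fun i => γ i.1) : ∃ d, (jBG b P).Ix (spO f (W.un c P)) x 8 δ d :=
  L.rz _ _ _ x _ δ (okP hJ hP f) hx h0 h1 fun i => ⟨f, 0, fun z hz => by
    have := (jE_ls hJ b hP).sub i ((jE_ok hJ b).U_sub i.1 le_rfl hz)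
    cases f <;> simp [spO, this], hF _ i.2⟩

omit hJ in
variable (J c) in
/-- **LEAF SPX** -/
theorem spx : Hd82.SpxL J c := by
  classical
  intro b P f γ x δ d hJ hP h0 h1 hF hx hd
  have st : ∀ {Q}, Q ⊆ ↑P → (jBG b Q).Std x fun i => γ i.1 := fun h => ⟨hx.1, fun i => hx.2 (inc h i)⟩
  have ex : ∀ {Q}, Q ⊆ ↑P → ∃ d, (jBG b Q).Ix (spO f (W.un c Q)) x 8 δ d := fun h =>
    exP L hJ (fun π k => hP π (h k)) h0 h1 (fun i k => hF _ (inc h ⟨i, k⟩).2) (st h)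
  choose! e he using fun π (k : π ∈ P) => ex (singleton_subset_iff.2 k)
  refine ⟨e, ?_, fun π k => ⟨st (singleton_subset_iff.2 k), he π k⟩⟩
  suffices h : ∀ Q ⊆ P, ∀ d, (jBG b ↑Q).Ix (spO f (W.un c ↑Q)) x 8 δ d → d = ∑ π ∈ Q, e π from
    h P subset_rfl d hd
  intro Q
  induction Q using Finset.induction_on with
  | empty =>
    intro _ d hd
    rw [Finset.coe_empty] at hd
    have := two L hJ (Q := ∅) (R := ∅) (by simp) disjoint_bot_left hx.1 (by rwa [union_empty]) hd hd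
    simpa using this
  | insert π Q k ih =>
    intro h d hd
    obtain ⟨h2, h3⟩ := Finset.insert_subset_iff.1 h
    obtain ⟨d', hd'⟩ := ex (Finset.coe_subset.2 h3)
    rw [Finset.coe_insert, insert_eq] at hd
    rw [Finset.sum_insert k, ← ih h3 d' hd']
    exact two L hJ (fun ρ l => l.elim (· ▸ hP π h2) fun l => hP ρ (h3 l))
      (disjoint_singleton_left.2 k) hx.1 hd (he π h2) hd'

end Crest.Agent.X212.Add46
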