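import Crest.Agent.X212.Add46.Sd

/-!
# Row 212, P-ADD (helper46): a glued wall is a cut
-/

set_option autoImplicit false
set_option linter.unusedSectionVars false
noncomputable section
open scoped Manifold ContDiff Topology
open MeasureTheory Set Function Filter

namespace Crest.Agent.X212.Add46
open An M Nd18 Nk89 Cht98 Rf65 Cyf70 Pj41 Cyl58

variable {Wi : Type} {X : Mf 4} {A κ lam : Type} [Fintype A] [Fintype κ] [Fintype lam]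
  [DecidableEq lam] {M : Mark X A κ} {W : World M} {N : ML M lam} {Λ : Lns W N}
  {A' H : Type} [Fintype A'] [DecidableEq A'] [Fintype H] {r n : ℕ}
  {J : Job Wi Λ A' H r n} {c d d₃ d₄ : M.Cl} {b : Bp J c} {τ τ₃ τ₄ : A → ℝ} {a : A}
  {π ρ ρ₃ ρ₄ : Reg A} {s : Stg d b} {s₃ : Stg d₃ b} {s₄ : Stg d₄ b}

/-- the end of a boundary wall -/
@[reducible] def toE {a : A} (h : a ∈ cylW d) {e : Bool} (k : π a = some e) : EdP d {π} :=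
  ⟨(⟨a, h⟩, e), π, rfl, k⟩

theorem EdP.eq (i : EdP d {π}) : π i.1.1 = some i.1.2 := let ⟨_, ⟨_, rfl, h⟩⟩ := i; h

theorem Sid.ne {e : Bool} (S : Sid s s₃ τ τ₃ π ρ a e) (i : {i : EdP d₃ {ρ} // i ≠ toE S.cd S.re}) :
    i.1.1.1.1 ≠ a := fun k => i.2 (Subtype.ext (Prod.ext (Subtype.ext k)
  (Option.some.inj ((EdP.eq i.1).symm.trans ((congrArg ρ k).trans S.re)))))

/-- the old ends of a side -/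
@[reducible] def Sid.oe {e : Bool} (S : Sid s s₃ τ τ₃ π ρ a e)
    (i : {i : EdP d₃ {ρ} // i ≠ toE S.cd S.re}) : EdP d {π} :=
  toE ⟨S.pi.bd_subset (Sys.mem_bd_of (S.bd _ _ (S.ne i) (EdP.eq i.1))), i.1.1.1.2.2⟩
    (S.bd _ _ (S.ne i) (EdP.eq i.1))

/-- the two sides of the wall `a` -/
structure Two (s : Stg d b) (s₃ : Stg d₃ b) (s₄ : Stg d₄ b) (τ τ₃ τ₄ : A → ℝ) (π ρ₃ ρ₄ : Reg A)
    (a : A) (r₃ r₄ : ℝ) : Prop where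
  S₃ : Sid s s₃ τ τ₃ π ρ₃ a false
  S₄ : Sid s s₄ τ τ₄ π ρ₄ a true
  U₃ : M.sys.U π ∩ (M.sys.w a).sd false ⊆ M.sys.U ρ₃
  U₄ : M.sys.U π ∩ (M.sys.w a).sd true ⊆ M.sys.U ρ₄
  bd : ∀ a' e, π a' = some e → ρ₃ a' = some e ∨ ρ₄ a' = some e
  dj : ∀ a', a' ≠ a → ρ₃ a' = none ∨ ρ₄ a' = none
  h₃ : 1 ≤ r₃
  h₄ : 1 ≤ r₄
  l : r₃ + r₄ = nl (τ a)

namespace Two
variable {r₃ r₄ : ℝ} (T : Two s s₃ s₄ τ τ₃ τ₄ π ρ₃ ρ₄ a r₃ r₄) {x : (J.xs a).Y.M × ℝ}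
include T

theorem R₃ : r₃ + 1 ≤ nl (τ a) := by linarith [T.l, T.h₄]

theorem R₄ : r₄ + 1 ≤ nl (τ a) := by linarith [T.l, T.h₃]

theorem J₃ {t : ℝ} : t ∈ T.S₃.K'.J ↔ 0 < t := T.S₃.J'.trans (by simp [pm])

theorem J₄ {t : ℝ} : t ∈ T.S₄.K'.J ↔ t < 0 := T.S₄.J'.trans (by simp [pm])

theorem K_K (h0 : 0 < x.2) (h1 : x.2 < r₃ + r₄) : T.S₃.K.ψ x = T.S₄.K.ψ (x.1, x.2 - (r₃ + r₄)) := by
  rw [T.l] at h1 ⊢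
  have k : x.2 ∈ T.S₃.K.J := T.S₃.Jt.2 (by simpa [pm] using ⟨h0, h1⟩)
  rw [T.S₃.h.ψ _ _ _ _ k, T.S₃.h.ψ _ _ _ _ (T.S₄.Jt.2 (by simpa [pm] using ⟨h1, h0⟩)),
    li_false (T.S₃.h.t2 a T.S₃.nd).2 (T.S₃.h.J_eq _ _ ▸ k)]

theorem T₃ (h0 : 0 < x.2) (h1 : x.2 < r₃ + 1) : T.S₃.K'.ψ x ∈ T.S₃.T (r₃ + 1) :=
  T.S₃.ψ_T (T.J₃.2 h0) (by simpa [pm] using h1)

theorem T₄ (h0 : x.2 < 0) (h1 : -x.2 < r₄ + 1) : T.S₄.K'.ψ x ∈ T.S₄.T (r₄ + 1) :=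
  T.S₄.ψ_T (T.J₄.2 h0) (by simpa [pm] using h1)

theorem Φ_Φ {t : ℝ} (h : |t| < 1) (y : (J.xs a).Y.M) : T.S₃.K'.ψ (y, r₃ + t) ∈ T.S₃.T (r₃ + 1) ∧
    T.S₄.K'.ψ (y, t - r₄) ∈ T.S₄.T (r₄ + 1) ∧
    T.S₃.Φ (T.S₃.K'.ψ (y, r₃ + t)) = T.S₄.Φ (T.S₄.K'.ψ (y, t - r₄)) := by
  obtain ⟨h1, h2⟩ := abs_lt.1 h
  have k3 : 0 < r₃ + t := by linarith [T.h₃]
  have k4 : t - r₄ < 0 := by linarith [T.h₄]
  refine ⟨T.T₃ k3 (by simpa), T.T₄ k4 (by simp; linarith), ?_⟩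
  rw [T.S₃.Φ_ψ (T.J₃.2 k3), T.S₄.Φ_ψ (T.J₄.2 k4), T.K_K k3 (by simp; linarith [T.h₄])]
  congr 2; ring

theorem cov : T.S₃.Φ '' T.S₃.T (r₃ + 1) ∪ T.S₄.Φ '' T.S₄.T (r₄ + 1) = W.un d {π} := by
  refine (union_subset (T.S₃.maps T.R₃) (T.S₄.maps T.R₄)).antisymm fun w hw => ?_
  rw [un_one] at hw
  have m := mem_d s.up T.S₃.ha
  by_cases k : |hZ W.toCaps d a w| < 1
  · obtain ⟨x, hx, rfl⟩ := T.S₃.K.ψ.surjOn ((T.S₃.h.tgt _ _ _).ge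
      ⟨abs_lt.1 k, .inl (T.S₃.h.t2 a T.S₃.nd).2⟩)
    have k1 : 0 < x.2 ∧ x.2 < r₃ + r₄ := by
      simpa [pm, T.l] using T.S₃.Jt.1 (T.S₃.K.mem_src.1 hx)
    by_cases k2 : x.2 < r₃ + 1
    · exact .inl ⟨_, T.T₃ k1.1 k2, T.S₃.Φ_ψ (T.J₃.2 k1.1)⟩
    · have k3 : (x.1, x.2 - (r₃ + r₄)).2 < 0 := sub_neg.2 k1.2
      exact .inr ⟨_, T.T₄ k3 (by simp; linarith), (T.S₄.Φ_ψ (T.J₄.2 k3)).trans (T.K_K k1.1 k1.2).symm⟩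
  have key : ∀ {d' : M.Cl} {s' : Stg d' b} {τ' ρ e R} (S : Sid s s' τ τ' π ρ a e) {z}, 0 < R →
      z ∈ W.pc d' ρ → W.up d d' z = w → w ∈ S.Φ '' S.T R := fun S z h0 h1 h2 => by
    rw [← h2, S.hZ_eq, not_lt] at k
    exact ⟨z, S.out_T h0 h1 k, (S.Φ_up (le_trans (by norm_num) k)).trans h2⟩
  have p3 : 0 < r₃ + 1 := by linarith [T.h₃]
  have p4 : 0 < r₄ + 1 := by linarith [T.h₄]
  have := M.con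
  rcases caps_surj W.toCaps w with ⟨x, hx, rfl⟩ | ⟨a', h1, h2, e', rfl⟩
  · have k1 := (φ_mem_pc W.toCaps T.S₃.pi hx).1 hw
    rcases (M.sys.w a).mem_cases false x with k2 | k2 | k2
    · have k3 := T.U₃ ⟨k1, k2⟩
      have k4 := disjoint_left.1 (T.S₃.rho.disjoint_cores d₃.2) k3
      exact .inl (key T.S₃ p3 (.inl ⟨x, k3, rfl⟩) (W.up_φ T.S₃.u k4))
    · rw [hZ_φ _ m hx, (M.bn a).s_eq_zero.2 k2] at k; norm_num at k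
    · have k3 := T.U₄ ⟨k1, k2⟩
      have k4 := disjoint_left.1 (T.S₄.rho.disjoint_cores d₄.2) k3
      exact .inr (key T.S₄ p4 (.inl ⟨x, k3, rfl⟩) (W.up_φ T.S₄.u k4))
  · exact (T.bd _ _ ((β_mem_pc W.toCaps T.S₃.pi h1 h2 _).1 hw)).imp
      (fun k1 => key T.S₃ p3 (.inr ⟨_, _, h2, k1, rfl⟩) (W.up_β T.S₃.u (T.S₃.u.1 h1) h2 _ _))
      fun k1 => key T.S₄ p4 (.inr ⟨_, _, h2, k1, rfl⟩) (W.up_β T.S₄.u (T.S₄.u.1 h1) h2 _ _)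

theorem band {z₃ z₄} (h₃ : z₃ ∈ T.S₃.T (r₃ + 1)) (h₄ : z₄ ∈ T.S₄.T (r₄ + 1))
    (h : T.S₄.Φ z₄ = T.S₃.Φ z₃) : z₃ ∈ T.S₃.K'.ψ '' univ ×ˢ Ioo (r₃ - 1) (r₃ + 1) := by
  have k4 : -1 < hZ W.toCaps d a (T.S₄.Φ z₄) := by
    rcases T.S₄.T_cases h₄ with ⟨y, k1, k2, rfl⟩ | ⟨k1, k2⟩
    · exact T.S₄.Φ_ψ k1 ▸ (abs_lt.1 (T.S₄.hZ_lt T.R₄ k1 k2)).1
    · rw [k2, T.S₄.hZ_eq]; simp only [pm, if_true] at k1; linarith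
  rcases T.S₃.T_cases h₃ with ⟨x, k1, k2, rfl⟩ | ⟨k1, k2⟩
  · have k3 := T.S₃.hZ_lt T.R₃ k1 k2
    have k5 : x.2 < r₃ + 1 := by simpa [pm] using k2
    rw [T.S₃.Φ_ψ k1] at h
    rcases T.S₄.T_cases h₄ with ⟨y, l1, l2, rfl⟩ | ⟨l1, l2⟩
    · have l3 := T.J₃.1 k1
      have l4 : x.2 < r₃ + r₄ := by linarith [T.h₄]
      rw [T.S₄.Φ_ψ l1, T.K_K l3 l4] at h
      have l5 := congrArg Prod.snd (T.S₄.K.ψ.injOn (T.S₄.K.mem_src.2 (T.S₄.JK T.R₄ l1 l2))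
        (T.S₄.K.mem_src.2 (T.S₄.Jt.2 (by simpa [pm, ← T.l] using ⟨l4, l3⟩))) h)
      simp only [pm, if_true] at l2 l5
      exact ⟨x, ⟨trivial, by linarith, k5⟩, rfl⟩
    · rw [← h, l2, T.S₄.hZ_eq, abs_of_pm (one_pos.trans_le l1)] at k3
      exact (k3.not_ge l1).elim
  · rw [h, k2, T.S₃.hZ_eq] at k4
    simp only [pm, Bool.false_eq_true, if_false] at k1
    linarith

theorem bij : Bijective (Sum.elim T.S₃.oe T.S₄.oe) := by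
  have i : ∀ {d' : M.Cl} {s' : Stg d' b} {τ' ρ e} (S : Sid s s' τ τ' π ρ a e), Injective S.oe :=
    fun S i j k => Subtype.ext (Subtype.ext (Prod.ext
      (Subtype.ext (congrArg (·.1.1.1) k)) (congrArg (·.1.2) k)))
  refine ⟨(i _).sumElim (i _) fun i j k => ?_, fun i => ?_⟩
  · have k1 : i.1.1.1.1 = j.1.1.1.1 := congrArg (·.1.1.1) k
    rcases T.dj _ (T.S₃.ne i) with k2 | k2
    · exact absurd (EdP.eq i.1) (by simp [k2])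
    · exact absurd (EdP.eq j.1) (by simp [← k1, k2])
  · have ne : i.1.1.1 ≠ a := fun k => T.S₃.nd.2 (k ▸ i.1.1.2.1)
    rcases T.bd _ _ (EdP.eq i) with k | k
    · exact ⟨.inl ⟨toE ⟨T.S₃.u.1 i.1.1.2.1, i.1.1.2.2⟩ k, fun e => ne (congrArg (·.1.1.1) e)⟩, rfl⟩
    · exact ⟨.inr ⟨toE ⟨T.S₄.u.1 i.1.1.2.1, i.1.1.2.2⟩ k, fun e => ne (congrArg (·.1.1.1) e)⟩, rfl⟩

/-- **the cut** -/
def gc : GC (jX J a) (s.bg π) (s₃.bg ρ₃) (s₄.bg ρ₄) where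
  p₃ := T.S₃.gp T.R₃
  p₄ := T.S₄.gp T.R₄
  a₃ := toE T.S₃.cd T.S₃.re
  a₄ := toE T.S₄.cd T.S₄.re
  K₃ := T.S₃.K'
  K₄ := T.S₄.K'
  s₃ := r₃
  s₄ := r₄
  f := (Equiv.ofBijective _ T.bij).symm
  e₃ := rfl
  e₄ := rfl
  J₃ _ h := T.J₃.2 ((sub_nonneg.2 T.h₃).trans_lt h)
  J₄ _ h := T.J₄.2 (h.trans_le (sub_nonpos.2 T.h₄))
  cov := T.cov
  t₃ := congrArg (W.un d₃ {ρ₃} \ ·) (Eq.trans (Set.ext fun _ => by simp [pm])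
    (Glc56.nk_img (b := s₃.bg ρ₃) (X := jX J a) (S := Ici _) T.S₃.K' fun t (h : r₃ + 1 ≤ t) =>
      T.J₃.2 (by linarith [T.h₃])).symm)
  t₄ := congrArg (W.un d₄ {ρ₄} \ ·) (Eq.trans (Set.ext fun _ => by
      simp [pm]; constructor <;> intro <;> linarith)
    (Glc56.nk_img (b := s₄.bg ρ₄) (X := jX J a) (S := Iic _) T.S₄.K' fun t (h : t ≤ -r₄ - 1) =>
      T.J₄.2 (by linarith [T.h₄])).symm)
  band := Subset.antisymm (by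
      rintro _ ⟨_, ⟨⟨z₃, h₃, rfl⟩, z₄, h₄, h⟩, rfl⟩
      rw [T.S₃.gp_Φ T.R₃ h₃]; exact T.band h₃ h₄ h) (by
      rintro _ ⟨⟨y, t⟩, ⟨-, h1, h2⟩, rfl⟩
      obtain ⟨k1, k2, k3⟩ := T.Φ_Φ (t := t - r₃) (abs_lt.2 ⟨by linarith, by linarith⟩) y
      rw [add_sub_cancel] at k1 k3
      exact ⟨_, ⟨⟨_, k1, rfl⟩, _, k2, k3.symm⟩, T.S₃.gp_Φ T.R₃ k1⟩)
  jj := by
    rintro _ ⟨z, hz, rfl⟩ y t h k
    obtain ⟨k1, k2, k3⟩ := T.Φ_Φ h y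
    obtain rfl : z = _ := (T.S₃.gp_Φ T.R₃ hz).symm.trans k
    have k4 := T.S₃.gp_U T.R₃ hz
    have k5 := T.S₄.gp_U T.R₄ k2
    rw [← k3] at k5
    exact ⟨k3 ▸ T.S₄.gp_Φ T.R₄ k2, k4.1.trans k5.1.symm, k4.2.trans k5.2.symm⟩
  mt i := by
    obtain ⟨j, rfl⟩ := T.bij.2 i
    rw [Equiv.ofBijective_symm_apply_apply]
    rcases j with j | j
    · exact ⟨_, _, _, _, rfl, rfl, T.S₃.gp_mk T.R₃ (by linarith [T.h₃])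
        ⟨s₃.up.1 j.1.1.1.2.1, j.1.1.1.2.2⟩ (T.S₃.ne j) (EdP.eq j.1)⟩
    · exact ⟨_, _, _, _, rfl, rfl, T.S₄.gp_mk T.R₄ (by linarith [T.h₄])
        ⟨s₄.up.1 j.1.1.1.2.1, j.1.1.1.2.2⟩ (T.S₄.ne j) (EdP.eq j.1)⟩

theorem gc_sp (f : Bool) :
    T.gc.Sp (spO f (W.un d {π})) (spO f (W.un d₃ {ρ₃})) (spO f (W.un d₄ {ρ₄})) f := by
  refine ⟨T.S₃.h.ok T.S₃.pi f, T.S₃.h'.ok T.S₃.rho f, T.S₄.h'.ok T.S₄.rho f, T.S₃.gp_sp T.R₃ f,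
    T.S₄.gp_sp T.R₄ f, fun x hx => ?_, fun x hx => ?_⟩ <;> cases f
  · simp [spO]
  · exact iff_of_true ((T.S₃.h'.ls T.S₃.rho).sub T.gc.a₃
      (T.S₃.h'.eb.U_sub T.gc.a₃.1 (sub_nonneg.2 T.h₃) hx)) rfl
  · simp [spO]
  · exact iff_of_true ((T.S₄.h'.ls T.S₄.rho).sub T.gc.a₄
      (T.S₄.h'.eb.U_sub T.gc.a₄.1 (sub_nonneg.2 T.h₄) hx)) rfl

end Two

end Crest.Agent.X212.Add46
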