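import Crest.Agent.X212.Nd18.Aps
import Crest.Agent.X212.Nk89.Geo

/-!
# Row 212, P-ADD (helper46): backgrounds with ends
-/

set_option autoImplicit false
set_option linter.unusedSectionVars false
noncomputable section
open scoped Manifold ContDiff Topology
open MeasureTheory Set Function Filter

namespace Crest.Agent.X212.Add46
open An M Nd18 Nk89 Cht98
open Met55 (fam)

variable {κ lam : Type} [Fintype κ] [Fintype lam] {Z : Mf 4}

variable (κ lam Z) in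
/-- a background with all its ends -/
structure EB : Type 1 where
  B : Base Z.M (Option κ) lam
  G : Geo Z.I Z.M (Option κ) lam
  A : Type
  [fin : Fintype A]
  E : A → Nd18.En B G

attribute [instance] EB.fin

namespace EB
variable (e : EB κ lam Z) {O O' : Set Z.M} {A' : Type} [Fintype A'] {ι : A' → e.A}
  {T : Type} [NormedAddCommGroup T] [NormedSpace ℝ T]

/-- the ends in a family -/
abbrev P {G0 : Geo Z.I Z.M (Option κ) lam} (H : T → Geo Z.I Z.M (Option κ) lam) (Q : Set T)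
    (O O' : Set Z.M) (K : ∀ a, Nk (e.E a).X.D e.B G0) (a : e.A) : End (fam e.B G0.F G0 H Q O O') :=
  ⟨(e.E a).X.Y, (e.E a).X.D, K a, (e.E a).out⟩

/-- the ends in the constant family -/
abbrev P0 (O O' : Set Z.M) := e.P (fun _ : T0 => e.G) univ O O' fun a => (e.E a).K

structure OK : Prop where
  X : ∀ a, (e.E a).X.OK
  B : e.B.OK Z.I
  G : e.G.OK e.B
  st : ∀ a, St0 (e.P0 ∅ ∅ a)
  dis : Pairwise fun a b => Disjoint (e.E a).K.ψ.target (e.E b).K.ψ.target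
  cov : IsCompact (⋃ a, (e.P0 ∅ ∅ a).U 5)ᶜ

variable (O ι) in
/-- the part over `O` -/
@[reducible] def bg : BG κ lam Z := ⟨e.B, e.G, O, A', fun a => e.E (ι a)⟩

variable (O ι) in
/-- `ι` lists the ends of `O` -/
structure Ls : Prop where
  inj : Injective ι
  sub : ∀ a, (e.E (ι a)).K.ψ.target ⊆ O
  off : ∀ a ∉ range ι, Disjoint (e.E a).K.ψ.target O

variable {e}

theorem OK.deep (h : e.OK) {x : Z.M} (hx : x ∉ (⋃ a, (e.P0 ∅ ∅ a).U 5)ᶜ) :
    ∃ a, x ∈ (e.E a).K.tm ⁻¹' Jc (e.E a).K.p (e.E a).K.q 1 := by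
  obtain ⟨a, ha⟩ := mem_iUnion.1 (not_not.1 hx)
  have h1 := (h.st a).p
  have h2 := (h.st a).q
  have h3 := ha.2
  refine ⟨a, ?_⟩
  simp only [End.sg] at h1 h2 h3
  rw [mem_preimage, h1, h2]
  cases h4 : (e.E a).out <;> simp only [h4, cond] at h3 ⊢ <;> simp [Jc] <;> linarith

theorem OK.tame (h : e.OK) : ∃ C, e.G.F.Tame C := by
  obtain ⟨C0, k0⟩ := TOn.compact e.G.F Z.dim.le h.cov
  choose C1 k1 using fun a => deep_nck (e.E a).X.D.F (e.E a).X.Y.dim.le one_pos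
  choose C2 k2 using fun k => (finite_range fun a => C1 a k).bddAbove
  exact ⟨_, tame_of_deep (C := fun k => max (C0 k) (C2 k)) h.cov (fun _ => h.deep)
    (k0.mono subset_rfl fun _ => le_max_left _ _) fun a => (k1 a (nck (e.E a).K)).mono subset_rfl
      fun k => (k2 k ⟨a, rfl⟩).trans (le_max_right _ _)⟩

theorem OK.cb (h : e.OK) {N : Type} [NormedAddCommGroup N] [NormedSpace ℝ N] {f : Z.M → N}
    (hf : Sm Z.I f) {g : ∀ a, (e.E a).X.Y.M → N}
    (hg : ∀ a, Sm (Cyf70.IC (e.E a).X.Y.I) fun x : _ × ℝ => g a x.1)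
    (he : ∀ a, ∀ x ∈ (e.E a).K.ψ.source, f ((e.E a).K.ψ x) = g a x.1) : e.G.F.Cb f := by
  obtain ⟨C0, k0⟩ := bOn_compact e.G.F.toPre h.cov (f := fun _ : Unit => f) fun _ => hf
  choose C1 k1 using fun a => cb_inv (e.E a).X.D.F.toPre (hg a)
  choose C2 k2 using fun k => (finite_range fun a => C1 a k).bddAbove
  refine ⟨fun k => max (C0 k) (C2 k), CBs_of_BOn hf fun x => ?_⟩
  by_cases hx : x ∈ (⋃ a, (e.P0 ∅ ∅ a).U 5)ᶜ
  · exact ⟨_, hx, (k0 ()).mono subset_rfl fun _ => le_max_left _ _⟩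
  · obtain ⟨a, ha⟩ := mem_iUnion.1 (not_not.1 hx)
    exact ⟨_, ha.1, ((nck (e.E a).K).bOn (he a) (k1 a)).mono subset_rfl
      fun k => (k2 k ⟨a, rfl⟩).trans (le_max_right _ _)⟩

theorem OK.endIn (h : e.OK) (hO : IsClopen O) (hO' : IsClopen O') (hs : O' ⊆ O) :
    EndIn (e.P0 O O') := by
  have ag : ∀ {U : Set Z.M}, IsOpen U → Agr e.G e.G U := fun hU =>
    ⟨hU, fun _ _ _ => rfl, fun _ _ _ => rfl⟩
  refine ⟨Met55.fam_ok (famIn_out isCompact_empty isOpen_univ h.B h.G (fun _ _ => h.G) h.tame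
    (fun _ _ => h.tame) (fun i k l n => h.cb (h.B.so i k l n) (g := fun a => (e.E a).X.D.o i k l n)
      (fun a => (h.X a).ok.B.so i k l n) fun a => (e.E a).K.o i k l n)
    (h.cb h.B.sl (g := fun a => (e.E a).X.D.l) (fun a => (h.X a).ok.B.sl) fun a => (e.E a).K.l)
    (fun i => h.cb (h.G.con.sm i) (g := fun a y => (e.E a).X.D.G.a i (y, 0)) (fun a => ?_)
      fun a x hx => ((e.E a).K.a i x hx).trans (by cases i <;> rfl))
    (Prm93.JF.fixed _) (fun i _ _ x => .of_fixed (h.G.con.sm i x))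
    fun _ _ => ag (by simp)) hO hO' hs, fun a => ⟨(h.st a).p, (h.st a).q⟩, fun a => (h.X a).ok,
    fun a => (h.X a).con.toPreconnectedSpace, h.dis, h.cov,
    fun a _ _ => ag (e.E a).K.ψ.open_target⟩
  have := (h.X a).ok.G.con.sm i
  cases i <;> exact this

section gr
variable {G0 : Geo Z.I Z.M (Option κ) lam} {H : T → Geo Z.I Z.M (Option κ) lam} {Q : Set T}
  {K : ∀ a, Nk (e.E a).X.D e.B G0} (h : EndIn (e.P H Q O O' K)) {δ : ℝ} (h0 : 0 < δ) (h1 : δ ≤ dl0)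
  (hX : ∀ a, (e.E a).X.OK) (l : e.Ls O ι) (hK : ∀ a, (K a).ψ.target = (e.E a).K.ψ.target)
include hX l hK

theorem act_iff (a : e.A) : (h.ends h0 h1).Act a ↔ a ∈ range ι := by
  refine ⟨fun k => by_contra fun k' => ?_, fun ⟨a', k⟩ x hx => l.sub a' (k ▸ hK a ▸ hx.1)⟩
  obtain ⟨y⟩ := (hX a).con.toNonempty
  have h2 := abs_sg (e.P H Q O O' K a)
  have h3 : (e.P H Q O O' K a).sg * ((e.P H Q O O' K a).sg * 6) = 6 := by
    rw [← mul_assoc, ← abs_mul_abs_self, h2]; norm_num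
  have h4 : (y, (e.P H Q O O' K a).sg * 6) ∈ (K a).ψ.source :=
    (K a).mem_src.2 ((h.st a).mem_J.2 (by rw [h3]; norm_num))
  refine disjoint_left.1 (l.off a k') (hK a ▸ (K a).ψ.map_source h4) (k ⟨(K a).ψ.map_source h4, ?_⟩)
  show (5 : ℝ) < (e.P H Q O O' K a).sg * (K a).tm _
  rw [(K a).tm_ψ _ h4, h3]; norm_num

/-- the family with ends through the part -/
def gr (t : T) (ht : t ∈ Q) (hG : H t = e.G)
    (hψ : ∀ a, EqOn (K a).ψ (e.E a).K.ψ (univ ×ˢ (e.E a).ht 0)) : (e.bg O ι).GR O' δ where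
  T := T
  𝔉 := wF (e.P H Q O O' K) δ
  X := h.ends h0 h1
  t := t
  ht := ht
  f := Equiv.ofBijective (fun a => ⟨ι a, (act_iff h h0 h1 hX l hK _).2 ⟨a, rfl⟩⟩)
    ⟨fun _ _ k => l.inj (congrArg Subtype.val k), fun a =>
      let ⟨a', k⟩ := (act_iff h h0 h1 hX l hK _).1 a.2; ⟨a', Subtype.ext k⟩⟩
  K a := K (ι a)
  hB := rfl
  hG := hG
  hO := rfl
  hO' := rfl
  hP _ := rfl
  hψ a := ⟨0, hψ (ι a)⟩

end gr

theorem OK.ht (h : e.OK) (a : e.A) {s : ℝ} (hs : 0 ≤ s) : (e.E a).ht s ⊆ (e.E a).K.J :=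
  fun _ k => (h.st a).mem_J.2 (hs.trans_lt k)

theorem OK.U_sub (h : e.OK) (a : e.A) {s : ℝ} (hs : 0 ≤ s) :
    (e.E a).U s ⊆ (e.E a).K.ψ.target := by
  rintro _ ⟨z, hz, rfl⟩
  exact (e.E a).K.ψ.map_source ((e.E a).K.mem_src.2 (h.ht a hs hz.2))

/-- **the parts of a background with ends** -/
theorem OK.ok (h : e.OK) (hO : IsClopen O) (hO' : IsClopen O') (hs : O' ⊆ O) (l : e.Ls O ι) :
    (e.bg O ι).OK O' where
  X a := h.X _
  B := h.B
  G := h.G
  cl := hO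
  cl' := hO'
  sub := hs
  en := ⟨0, fun a => ⟨h.ht _ le_rfl, (h.U_sub _ le_rfl).trans (l.sub a), fun _ k =>
    (h.dis fun k' => k (l.inj k').symm).mono (h.U_sub _ le_rfl) (h.U_sub _ le_rfl)⟩⟩
  cpt s _ := ⟨_, ((h.endIn hO hO' hs).ends dl0_pos le_rfl).cov' s, fun x hx =>
    (em _).imp_right fun k => by
      obtain ⟨a, ha⟩ := mem_iUnion.1 (not_not.1 k)
      obtain ⟨a', rfl⟩ : a ∈ range ι := by_contra fun k' => disjoint_left.1 (l.off a k') ha.1 hx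
      refine mem_iUnion.2 ⟨a', _, ⟨trivial, ?_⟩, (e.E _).K.ψ.right_inv ha.1⟩
      rw [(nck (e.E _).K).snd_symm ha.1]; exact ha.2⟩
  gr _ h0 h1 := ⟨gr (h.endIn hO hO' hs) h0 h1 h.X l (fun _ => rfl) 0 trivial rfl fun _ _ _ => rfl,
    inferInstanceAs (Subsingleton T0), rfl⟩

end EB

end Crest.Agent.X212.Add46
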