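import Crest.Agent.X212.Aps75.Main
import Crest.Agent.X212.Glc56.Cyl
import Crest.Agent.X212.Glc56.Main
import Crest.Agent.X212.Cht98.Nk
import Crest.Agent.X212.Add46.Eb

/-!
# Row 212, P-ADD (helper46): literal relations, gluing, compact parts
-/

set_option autoImplicit false
set_option linter.unusedSectionVars false
noncomputable section
open scoped Manifold ContDiff Topology InnerProductSpace
open MeasureTheory Set Function Filter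

namespace Crest.Agent.X212.Add46
open An M Cyf70 Nd18 Pj41 Glc56
open Tmp64 (AdmOn Eq0 admOn_univ)
open Eqv71 (pullC)

variable {κ lam : Type} [Fintype κ] [Fintype lam] {Z Z' Z'' : Mf 4}

section rel
variable {ι : Type} [Fintype ι] {B : Base Z.M ι lam} {G : Geo Z.I Z.M ι lam} {B' : Base Z'.M ι lam}
  {G' : Geo Z'.I Z'.M ι lam} {ψ : Z.M → Z'.M} {O : Set Z.M}

theorem gr_trans {B'' : Base Z''.M ι lam} {G'' : Geo Z''.I Z''.M ι lam} {χ : Z'.M → Z''.M}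
    {O' : Set Z'.M} (h : GRel B G B' G' ψ O) (k : GRel B' G' B'' G'' χ O') (m : MapsTo ψ O O') :
    GRel B G B'' G'' (χ ∘ ψ) O :=
  ⟨h.fr.trans k.fr m, fun a b x hx => (h.P a b x hx).trans (k.P a b _ (m hx)),
    fun a b c d x hx => (h.o a b c d x hx).trans (k.o a b c d _ (m hx)),
    fun x hx => (h.l x hx).trans (k.l _ (m hx)), h.il.trans k.il,
    fun a x hx => (h.a a x hx).trans (k.a a _ (m hx))⟩

theorem gr_loc (hO : IsOpen O) (il : B.il = B'.il)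
    (h : ∀ x ∈ O, ∃ U χ, x ∈ U ∧ GRel B G B' G' χ U ∧ EqOn ψ χ U) : GRel B G B' G' ψ O :=
  ⟨⟨hO, fun x hx => let ⟨_, _, a, b, c⟩ := h x hx; (b.fr.congr c).ld x a,
    fun i x hx => let ⟨_, _, a, b, c⟩ := h x hx; (b.fr.congr c).e i x a⟩,
    fun i j x hx => let ⟨_, _, a, b, c⟩ := h x hx; c a ▸ b.P i j x a,
    fun i j k l x hx => let ⟨_, _, a, b, c⟩ := h x hx; c a ▸ b.o i j k l x a,
    fun x hx => let ⟨_, _, a, b, c⟩ := h x hx; c a ▸ b.l x a, il,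
    fun i x hx => let ⟨_, _, a, b, c⟩ := h x hx; c a ▸ b.a i x a⟩

theorem gr_symm {φ : OpenPartialHomeomorph Z.M Z'.M} (g : GRel B G B' G' φ φ.source)
    (hG : G.F.IsVol) (hG' : G'.F.IsVol) : GRel B' G' B G φ.symm φ.target := by
  have i := fun x hx => φ.right_inv (x := x) hx
  have s := fun x hx => φ.map_target (x := x) hx
  exact ⟨fRel_of_iso (Sob92.iso_symm (g.fr.iso hG hG')),
    fun a b x hx => by rw [g.P a b _ (s x hx), i x hx],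
    fun a b c d x hx => by rw [g.o a b c d _ (s x hx), i x hx],
    fun x hx => by rw [g.l _ (s x hx), i x hx], g.il.symm,
    fun a x hx => by rw [g.a a _ (s x hx), i x hx]⟩

/-- an injective literal relation as a chart -/
def grH [Nonempty Z.M] (g : GRel B G B' G' ψ O) (i : InjOn ψ O) : OpenPartialHomeomorph Z.M Z'.M :=
  Cht98.oph ψ g.fr.op i.bijOn_image
    (fun x hx => (g.fr.ld x hx).contMDiffAt.continuousAt.continuousWithinAt) fun x hx => by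
      obtain ⟨Φ, h1, h2⟩ := g.fr.ld x hx
      rw [h2 h1, map_congr (eventually_of_mem (Φ.open_source.mem_nhds h1) h2)]
      exact (Φ.toOpenPartialHomeomorph.map_nhds_eq h1).ge

end rel

/-- two necks over one cross-section -/
theorem nk_nk {X : XD κ lam} {B : Base Z.M (Option κ) lam} {G : Geo Z.I Z.M (Option κ) lam}
    {B' : Base Z'.M (Option κ) lam} {G' : Geo Z'.I Z'.M (Option κ) lam} (K : Nk X.D B G)
    (K' : Nk X.D B' G') (hX : X.D.OK) (hG : G.F.IsVol) :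
    GRel B G B' G' (K'.ψ ∘ K.ψ.symm) (K.tm ⁻¹' (K.J ∩ K'.J)) :=
  have s : K.tm ⁻¹' (K.J ∩ K'.J) ⊆ K.ψ.target := fun _ h => K.tgt.ge h.1
  gr_trans (Z' := cylM X.Y) ((gr_symm (Z := cylM X.Y) (nk_gRel K) hX.G.vol hG).mono
    ((isOpen_Jv.inter isOpen_Jv).preimage K.cont) s) (nk_gRel K') fun _ h =>
      K'.mem_src.2 (K.snd_symm (s h) ▸ h.2)

section gp
variable {b : BG κ lam Z} {b' : BG κ lam Z'} {O : Set Z.M} {O' : Set Z'.M} (hb : b.OK O)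
  (hb' : b'.OK O') {φ : OpenPartialHomeomorph Z.M Z'.M} (g : GRel b.B b.G b'.B b'.G φ φ.source)
  (h1 : φ.source ⊆ b.O) (h2 : φ.target ⊆ b'.O)

/-- a literal patch -/
def gpL : GP b b' :=
  ⟨φ, fun x i j => b'.B.P i j (φ x), fun x => b'.B.l (φ x),
    g.fr.gEq hb.B hb'.B hb.G hb'.G g.a g.o g.l g.il, h1, h2⟩

theorem gpL_mk {X : XD κ lam} {K : Nk X.D b.B b.G} {K' : Nk X.D b'.B b'.G} {o : Bool}
    (h : ∀ z ∈ univ ×ˢ (En.mk X K o).ht 0, z.2 ∈ K'.J ∧ K.ψ z ∈ φ.source ∧ φ (K.ψ z) = K'.ψ z) :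
    (gpL hb hb' g h1 h2).Mk K K' o := ⟨0, 0, fun z hz =>
  let ⟨k1, k2, k3⟩ := h z hz
  ⟨k2, by rw [add_zero]; exact k3, funext₂ fun i j =>
    (congrArg (b'.B.P i j) k3).trans (K'.P i j z (K'.mem_src.2 k1)),
    (congrArg b'.B.l k3).trans (K'.l z (K'.mem_src.2 k1))⟩⟩

end gp

theorem clo0 {k : ℕ} (L : IxL κ lam k) {b : BG κ lam Z} [IsEmpty b.A] (hb : ∀ f, b.OK (spO f b.O))
    [CompactSpace Z'.M] [Nonempty Z'.M] {j : Z'.M → Z.M} (hj : Cyl58.IsOE Z'.I Z.I j)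
    (r : j '' univ = b.O) {c : C0 Z κ lam} (hc : c.Adm b.B b.G) {δ : ℝ} (h0 : 0 < δ)
    (h1 : δ ≤ Cht98.dl0) : (∃ n : ℤ, b.kap b.O c = b.tD b.O / 2 + n) ∧
      ∀ f d, b.Ix (spO f b.O) c k δ d → (d : ℝ) = b.top (spO f b.O) c := by
  have h := hb true
  let e : EB κ lam Z' := ⟨cmB j b.B, cmG hj.loc b.G, Empty, Empty.elim⟩
  have he : e.OK := ⟨fun a => a.elim, cmB_ok hj.contMDiff h.B, cmG_ok hj.loc h.G, fun a => a.elim,
    fun a => a.elim, by simpa using isCompact_univ⟩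
  have ok := fun f => he.ok (ι := id) isClopen_univ (clopen_spO f isClopen_univ) (subset_univ _)
    ⟨injective_id, fun a => a.elim, fun a => a.elim⟩
  have g : GRel e.B e.G b.B b.G j univ := (cmF_rel hj.loc b.G.F).gRel rfl fun _ _ _ => rfl
  let p : GP (e.bg univ id) b := gpL (ok true) h (φ := grH g hj.inj.injOn) g subset_rfl r.le
  have gl : p.Gl (Equiv.equivOfIsEmpty _ _) := ⟨rfl, r, fun a => a.elim⟩
  have sp : ∀ f, p.Sp (spO f univ) (spO f b.O) := fun f x _ => by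
    cases f
    exacts [Iff.rfl, iff_of_true (r.le ⟨x, trivial, rfl⟩) trivial]
  have ad := cmC_adm hj.loc hc
  obtain ⟨u, ce⟩ : ∃ u, p.Ce (cmC j c) c u 1 := ⟨_, g.fr.cEq h.B hc⟩
  have t := fun f => L.top.1 _ _ _ _ p _ _ _ (ok f) (hb f) gl (sp f)
  have t' := fun f => (t f).2.2 _ _ _ _ ad hc ce
  refine ⟨?_, fun f d hd => ?_⟩
  · have := Aps75.kap_int (ok true) ad
    rwa [(t true).2.1, (t' true).2] at this
  · obtain ⟨d', k3, k4⟩ := L.clo _ _ _ _ inferInstance (ok f) ad δ h0 h1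
    rw [← L.geq _ _ _ _ p _ _ _ _ _ _ _ _ _ _ (ok f) (hb f) gl (sp f) ad hc ce k4 hd, k3, BG.top,
      (t f).1, (t f).2.1, (t' f).1, (t' f).2, BG.top]

/-- **compact parts** -/
theorem clo {k : ℕ} (L : IxL κ lam k) {b : BG κ lam Z} [IsEmpty b.A] (hb : ∀ f, b.OK (spO f b.O))
    (hn : b.O.Nonempty) {c : C0 Z κ lam} (hc : c.Adm b.B b.G) {δ : ℝ} (h0 : 0 < δ)
    (h1 : δ ≤ Cht98.dl0) : (∃ n : ℤ, b.kap b.O c = b.tD b.O / 2 + n) ∧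
      ∀ f d, b.Ix (spO f b.O) c k δ d → (d : ℝ) = b.top (spO f b.O) c :=
  let ⟨_, k1, k2⟩ := (hb true).cpt 0 isEmptyElim
  @clo0 _ _ _ _ _ (.of 4 Z.I (⟨b.O, (hb true).cl.2⟩ : TopologicalSpace.Opens Z.M) Z.dim) _ L b _ hb
    (isCompact_iff_compactSpace.1 (k1.of_isClosed_subset (hb true).cl.1 (k2.trans (by simp))))
    hn.to_subtype Subtype.val (Cyl58.isOE_val (IA := Z.I) ⟨b.O, (hb true).cl.2⟩)
    (Subtype.coe_image_univ _) _ hc _ h0 h1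

/-- gluing; the text of `Glc56.glc` with a weaker hypothesis on `c₀` -/
theorem glc' {X : XD κ lam} {Z₁ Z₃ Z₄ : Mf 4} {b₁ : BG κ lam Z₁} {b₃ : BG κ lam Z₃}
    {b₄ : BG κ lam Z₄} (g : GC X b₁ b₃ b₄) {c₀ : C0 Z₁ κ lam} {c₃ c₄ β w₃ η₃ w₄ η₄}
    (hs : g.Sp ∅ ∅ ∅ false) (h₀ : AdmOn c₀ b₁.B b₁.G b₁.Oᶜ) (h₃ : Cfg.Adm c₃ b₃.B b₃.G)
    (h₄ : Cfg.Adm c₄ b₄.B b₄.G) (s₃ : g.E₃.St c₃ β w₃ η₃ (g.s₃ - 1))
    (s₄ : g.E₄.St c₄ β w₄ η₄ (g.s₄ - 1)) : ∃ c₁, g.Cf c₁ c₃ c₄ β := by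
  have := Sob92.scs (I := Z₁.I) (M := Z₁.M)
  have := Sob92.scs (I := Z₃.I) (M := Z₃.M)
  have := Sob92.scs (I := Z₄.I) (M := Z₄.M)
  have hX : X.OK := by have := hs.o₃.X g.a₃; rwa [g.e₃] at this
  have a₃ := fun S => (admOn_univ.2 h₃).mono (subset_univ S)
  have a₄ := fun S => (admOn_univ.2 h₄).mono (subset_univ S)
  have m₃ : MapsTo g.p₃.φ g.p₃.φ.source univ := mapsTo_univ _ _
  have m₄ : MapsTo g.p₄.φ g.p₄.φ.source univ := mapsTo_univ _ _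
  have d₃ := admOn_pull g.p₃.g subset_rfl m₃ hs.o₁.B hs.o₁.G hs.o₃.B hs.o₃.G (admOn_ph η₃ (a₃ _))
  have d₄ := admOn_pull g.p₄.g subset_rfl m₄ hs.o₁.B hs.o₁.G hs.o₄.B hs.o₄.G (admOn_ph η₄ (a₄ _))
  obtain ⟨-, e₃⟩ := st_eq0 hX.ok g.K₃ s₃.adm (ht_open _ _) s₃.sub (a₃ _) s₃.eq
  obtain ⟨l₄, e₄⟩ := st_eq0 hX.ok g.K₄ s₄.adm (ht_open _ _) s₄.sub (a₄ _) s₄.eq
  have i₃ : ∀ y t, |t| < 1 → g.K₃.ψ.symm (g.K₃.ψ (y, g.s₃ + t)) = (y, g.s₃ + t) := fun y t h =>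
    g.K₃.ψ.left_inv (g.K₃.mem_src.2 (s₃.sub (ht₃ g h)))
  have i₄ : ∀ y t, |t| < 1 → g.K₄.ψ.symm (g.K₄.ψ (y, t - g.s₄)) = (y, t - g.s₄) := fun y t h =>
    g.K₄.ψ.left_inv (g.K₄.mem_src.2 (s₄.sub (ht₄ g h)))
  have n₃ : MapsTo g.p₃.φ (g.p₃.φ.source ∩ g.p₄.φ.source)
      (g.K₃.ψ '' univ ×ˢ g.E₃.ht (g.s₃ - 1)) := fun x hx =>
    let ⟨y, t, h, e⟩ := band g hx; ⟨(y, g.s₃ + t), ⟨trivial, ht₃ g h⟩, e.symm⟩
  have n₄ : MapsTo g.p₄.φ (g.p₃.φ.source ∩ g.p₄.φ.source)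
      (g.K₄.ψ '' univ ×ˢ g.E₄.ht (g.s₄ - 1)) := fun x hx =>
    let ⟨y, t, h, e⟩ := band g hx
    ⟨(y, t - g.s₄), ⟨trivial, ht₄ g h⟩, (g.jj x hx.1 y t h e).1.symm⟩
  have j : ∀ x ∈ g.p₃.φ.source ∩ g.p₄.φ.source, (g.K₄.ψ.symm (g.p₄.φ x)).1 =
      (g.K₃.ψ.symm (g.p₃.φ x)).1 ∧ g.p₄.U x = g.p₃.U x ∧ g.p₄.v x = g.p₃.v x := fun x hx => by
    obtain ⟨y, t, h, e⟩ := band g hx
    obtain ⟨e1, e2, e3⟩ := g.jj x hx.1 y t h e
    rw [e, e1, i₃ y t h, i₄ y t h]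
    exact ⟨rfl, e2.symm, e3.symm⟩
  have q₃ := eq0_pull g.p₃.g inter_subset_left n₃ hs.o₁.G e₃
  have q₄ := eq0_pull g.p₄.g inter_subset_right n₄ hs.o₁.G e₄
  have l := admOn_pull g.p₄.g inter_subset_right n₄ hs.o₁.B hs.o₁.G hs.o₄.B hs.o₄.G l₄
  have q : Eq0 b₁.G.F _ (pullC (lim g.K₄ β) g.p₄.φ g.p₄.U g.p₄.v) _ _ := eq0_tgt q₃
    (fun x hx => by simp only [(j x hx).1]) (fun b x hx => by simp only [j x hx])
    (fun x hx => by simp only [j x hx]) (fun b x hx => by simp only [pullW, j x hx])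
    fun x hx => by simp only [(j x hx).1]
  have a₀ := g.cov ▸ h₀
  obtain ⟨c, -, u₃, u₄, k1, -, k3, k4, k5⟩ := glue3 hs.o₁.G g.p₃.φ.open_source g.p₄.φ.open_source
    (g.cov ▸ hs.o₁.cl.1) a₀ d₃ d₄ (q.trans (q₄.symm (d₄.mono inter_subset_right) l))
  have a := fun S => (admOn_univ.2 k1).mono (subset_univ S)
  refine ⟨c, k1, h₃, h₄, _, _, _, _, w₃, η₃, w₄, η₄,
    ceq_of_eq0 g.p₃.g subset_rfl m₃ (okOn_univ.2 h₃.ok) (k3.symm d₃ (a _)),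
    ceq_of_eq0 g.p₄.g subset_rfl m₄ (okOn_univ.2 h₄.ok) (k4.symm d₄ (a _)), s₃, s₄,
    by rw [mul_inv_cancel, mul_inv_cancel], fun x hx y t h e => ?_⟩
  have hx' : x ∈ g.p₃.φ.source ∩ g.p₄.φ.source := by
    obtain ⟨x', h1, h2⟩ := g.band.ge ⟨(y, g.s₃ + t),
      ⟨trivial, by linarith [(abs_lt.1 h).1], by linarith [(abs_lt.1 h).2]⟩, e.symm⟩
    rwa [← g.p₃.φ.injOn h1.1 hx h2]
  have t1 := (q.iso.iso x hx').tgt
  have t2 := (q₄.iso.iso x hx').left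
  have t3 := k5 x hx'
  dsimp only at t1 t2 t3
  rw [e, i₃ y t h] at t1 t3
  rw [(g.jj x hx y t h e).1, i₄ y t h] at t1 t2 t3
  rw [← t3, ad_comp, ad_comp, ad_ad, ← ContinuousLinearMap.comp_assoc,
    ← ContinuousLinearMap.comp_assoc, t1, t2]

end Crest.Agent.X212.Add46
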