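import Crest.Agent.X212.Add46.Main
import Crest.Agent.X212.Hd82.Pd
import Crest.Agent.X212.Lix26.Defs
import Crest.Agent.X212.Pnt66.Ex
import Crest.Agent.X212.Kl48.Reg

/-!
# Row 212, LIX (helper46): the index inside one wall; nothing is assumed on the other walls
-/

set_option autoImplicit false
set_option linter.unusedSectionVars false
noncomputable section
open Set Function

namespace Crest.Agent.X212.Add46
open An M Nd18 Nk89 Cht98 Rf65 Rdc90 G75 Hd82 Kl48 Cyl58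
open Lix26 (kI DifAt)

variable {Wi : Type} {κ lam : Type} [Fintype κ] [Fintype lam] [DecidableEq lam]
  {A' H : Type} [Fintype A'] [DecidableEq A'] [Fintype H] {r n : ℕ}

section job
variable {X : Mf 4} {A : Type} [Fintype A] {M : Mark X A κ} {W : World M} {N : ML M lam}
  {Λ : Lns W N} {J : Job Wi Λ A' H r n} {c : M.Cl} {δ : ℝ} {l : A} {P P' : Set (Reg A)}

theorem bp_ext {b b' : Bp J c} (e : b.s = b'.s) : b = b' := by cases b; cases b'; cases e; rfl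

/-- existence of the index, with hypotheses on the ends of `P` only -/
theorem exI (hJ : J.OK) (h0 : 0 < δ) (h1 : δ ≤ dl0) (hP : ∀ π ∈ P, M.sys.Piece c.1 π) (hs : P' ⊆ P)
    {y : J.Obc c} (g : Go δ y P) (hN : ∀ i ∈ EdP c P, Ink3.Nil (J.xs i.1).N)
    (hF : ∀ i ∈ EdP c P, ∀ f, Fz κ (lam ⊕ lam) 8 (jX J i.1) f (y.β i.1 i.2) δ) :
    ∃ d, Ix δ y P P' d := by
  let G := jGR hJ hP hs g.bp h0 h1
  have ac : ∀ i : Ed c, G.X.Act i → i ∈ EdP c P := fun i hi =>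
    let ⟨j, hj⟩ := G.f.surjective ⟨i, hi⟩
    (show j.1 = i from congrArg Subtype.val hj) ▸ j.2
  obtain ⟨o, R, x, w, k1, k2, -, k4, k5, -⟩ := Pnt66.pnt G.X (t := (0 : T0)) (c := y.x.con)
    (β := fun i : Ed c => y.β i.1 i.2) (η := fun _ => 0) (l := fun _ => 0) (ζ := fun _ => 1)
    g.O g.adm (fun _ _ => rfl) fun (i : Ed c) hi => ⟨(g.bs i (ac i hi)).adm, Pnt66.fo_zero, by
      rw [smul_zero, Rd78.bh_zero, show (G.X.P i).l = dr i.2 by obtain ⟨_, _ | _⟩ := i <;> rfl]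
      exact g.lim i (ac i hi) _⟩
  have z := k5 fun i hi => (g.bs i (ac i hi)).zr
  have ch := jCh' hJ hP hs h0 h1 g hN hF k1.le k1.lit z ⟨w, 1, k4⟩
  obtain ⟨d, hd⟩ := (G.X.fred o R 0 0 0 8 _ (by norm_num) k1 ch.aff x
    (k2 ▸ fun (i : Ed c) hi k k0 => ⟨_, ch.loc ⟨i, ac i hi⟩ k k0⟩)).1
  exact ⟨d, g.bp, o, R, x, rfl, k1.le, k1.lit, z, ⟨w, 1, k4⟩, hd⟩

variable (J c δ l) in
/-- the index facts inside the wall `l` -/
structure LocAt : Prop where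
  ex : ∀ z : J.Obc c, Go δ z {hp l false} → Ix δ z {hp l false} ∅ (ia δ z (hp l false)) ∧
    Ix δ z {hp l false} {hp l false} (ia δ z (hp l false) + idr δ z (hp l false))
  uq : ∀ (z : J.Obc c) d, Go δ z {hp l false} → (Ix δ z {hp l false} ∅ d → d = ia δ z (hp l false)) ∧
    (Ix δ z {hp l false} {hp l false} d → d = ia δ z (hp l false) + idr δ z (hp l false))
  dif : ∀ z z' : J.Obc c, z'.s = z.s → Go δ z {hp l false} → Go δ z' {hp l false} →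
    (J.xs l).D.Eqv (z.β l false) (z'.β l false) → (∃ m : ℤ, kI z' l - kI z l = m) ∧
    (ia δ z' (hp l false) : ℝ) - 8 * kI z' l = ia δ z (hp l false) - 8 * kI z l ∧
    (idr δ z' (hp l false) : ℝ) + 2 * kI z' l = idr δ z (hp l false) + 2 * kI z l

theorem LocAt.difAt (h : LocAt J c δ l) : DifAt J c δ l :=
  fun _ _ _ _ z z' _ e e' => h.dif z z' (e'.trans e.symm)

end job

variable {Lm : LM κ lam} {S : Scene Lm} {i : S.L} {W : World S.M} {Λ : Lns W (S.N i)}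
  {J : Job Wi Λ A' H r n} {c : S.M.Cl} (L : IxL κ (lam ⊕ lam) 8) {δ : ℝ} {b : Bp J c} {f : Bool}
  {γ : ∀ a, (jX J a).C} {l : S.A}
include L

/-- closed regions -/
theorem fin (h0 : 0 < δ) (h1 : δ ≤ dl0) {d : S.M.Cl} {π : Reg S.A} (hπ : S.M.sys.Piece d.1 π)
    (pin : ∀ a ∈ Sys.bd π, S.M.pin a) {β sg l2 v k} (nb : S.Nb i (S.M.sys.U π) β sg l2)
    (R : Res b δ γ f d π v k) : (∃ m : ℤ, k = (l2 - sg) / 4 + m) ∧ v = fm f k β (l2 - sg) := by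
  obtain ⟨τ, s, x, m, o, st, k3, rfl, rfl⟩ := R
  have : IsEmpty (s.bg π).A := ⟨fun i => i.1.1.2.2 (pin _ (Sys.mem_bd_of (EdP.eq i)))⟩
  obtain ⟨⟨m', k1⟩, k2⟩ := clo L (o.ok hπ)
    ((isConnected_pc _ hπ).nonempty.mono (un_one W.toCaps d π).ge) st.1 h0 h1
  obtain ⟨r1, r2⟩ := Adc42.root κ lam Lm S i W Λ J.m d π (J.Θ b.s) s.F β sg l2 hπ pin o.vol o.P o.o nb
  rw [← un_one] at r1 r2
  have tA : (s.bg π).tA = -3 * β := r1
  have tD : (s.bg π).tD (W.un d {π}) = (l2 - sg) / 2 := r2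
  refine ⟨⟨m', k1.trans (by rw [tD]; ring)⟩, ?_⟩
  rw [k2 f m k3, BG.top, tA, fm]
  cases f
  · simp [spO, BG.kap, BG.tD, sub_eq_add_neg]
  · simp only [spO, cond, tD]; ring

variable (hW : W.Nrm) (hΛ : Λ.Nrm) (hJ : J.OK) (hm : cylW c ⊆ J.m.1) (hl : l ∈ cylW c)
  (hπ : hp l false ∈ Pc c)
include hW hΛ hJ hm hl hπ

variable (b) in
/-- the relative index theorem inside `l` -/
theorem core (h0 : 0 < δ) (h1 : δ ≤ dl0) (hγ : (J.xs l).D.Adm (γ l))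
    (hF : Fz κ (lam ⊕ lam) 8 (jX J l) f (γ l) δ) {w : ℤ}
    (hw : (jX J l).bg.Ix (spO f univ) (cy (γ l)) 8 δ w) : ∃ k₀ v₀ : ℝ, ∀ k d,
      Pd b γ δ f (hp l false) k d → (∃ m : ℤ, k = k₀ + m) ∧ d = (bif f then 6 else 8) * k + v₀ := by
  classical
  have := S.M.con
  obtain ⟨π, h₀, i₀⟩ := (Sys.existsUnique_inn (c.2.mono (sep_subset _ S.M.pin)) (fun h => hl.2 h.2)
    fun a h => c.2 hl.1 h.1 fun k => hl.2 (k ▸ h.2)).exists
  have pin : ∀ a ∈ Sys.bd π, a ∈ c.1 ∧ S.M.pin a := fun a k => h₀.bd_subset k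
  let d : S.M.Cl := ⟨c.1 \ S.M.sys.inn π, c.2.mono sdiff_subset⟩
  have u : S.M.Up d c := ⟨sdiff_subset, fun a k p => ⟨k, h₀.not_inn a ⟨k, p⟩⟩⟩
  have hd : S.M.sys.Piece d.1 π :=
    ⟨h₀.toIsReg, fun a k => ⟨(pin a k).1, fun k' => k k'.1⟩, fun _ k => k.2⟩
  obtain ⟨β, sg, l2, nb⟩ := Num57.exists_nb hd (fun a k => (pin a k).2) i
  obtain ⟨ρ, k1, k2, k3, -⟩ := (Hp13.Cmb.cmb _ _ S.M.sys c.1 d.1 π c.2 u.1 hd).2 l ⟨hl.1, i₀⟩
  let d₄ : S.M.Cl := ⟨insert l d.1, c.2.mono (insert_subset hl.1 u.1)⟩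
  have u₄ : S.M.Up d₄ c := ⟨insert_subset hl.1 u.1, fun a k p => .inr (u.2 a k p)⟩
  have e : hp l false = ρ false := (Sys.existsUnique_adj d₄.2 (.inl rfl) false).unique
    ⟨⟨hπ.toIsReg, fun a k => .inl (by_contra fun k' => k (hp_none.2 k')),
      fun a k => hπ.not_inn a (u₄.1 k)⟩, hp_self⟩ ⟨(k1 _).1, (k1 _).2.1⟩
  obtain ⟨s, o⟩ := exists_stg (b := b) (τ := fun a => if a ∈ d₄.1 then 1 else 1 / 2) hJ hm u₄
    (fun a k => if_pos k) fun a k => by rw [if_neg k.2]; norm_num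
  have ed : ∀ j : EdP d₄ {ρ true}, j.1.1.1 = l := fun j => by_contra fun k =>
    j.1.1.2.2 (pin _ (Sys.mem_bd_of ((k2 _ _ k).2 ⟨_, EdP.eq j⟩))).2
  obtain ⟨_, md⟩ := mdJ hW hΛ fun a (k : a ∈ cylW d₄) => hm ⟨u₄.1 k.1, k.2⟩
  obtain ⟨_, ad⟩ := Hd28.adm_of_md o.eb.B o.eb.G md
  obtain ⟨x₄, st⟩ := Hd28.exists_std (β := fun j => γ j.1.1) (o.ok (k1 true).1 false) ad
    fun j => ((ed j).symm ▸ hγ : (J.xs j.1.1).D.Adm (γ j.1.1))
  obtain ⟨m₄, ix⟩ := rz' L (o.ok (k1 true).1 f) st h0 h1 fun j =>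
    ((ed j).symm ▸ hF : Fz κ (lam ⊕ lam) 8 (jX J j.1.1) f (γ j.1.1) δ)
  rw [e] at hπ ⊢
  have key := fun k d' (h : Pd b γ δ f (ρ false) k d') => fin L h0 h1 hd (fun a k => (pin a k).2) nb
    (step L hJ hW hΛ hm h0 h1 u rfl hd ⟨hl.1, i₀⟩ u ⟨subset_insert _ _, fun a k => u.2 a (u₄.1 k)⟩ hπ
      (k1 true).1 (k1 _).2.1 (k1 _).2.1 (k1 _).2.2 (k1 _).2.2
      (fun a' e k => (k2 a' e k).trans Bool.exists_bool) k3 (fun _ k ne => .inr (·.elim ne k.2))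
      (fun _ => .inl) (fun j => (j.1.1.2.2 (pin _ (Sys.mem_bd_of (EdP.eq j))).2).elim) hw
      (let ⟨x, h1, h2, h3⟩ := h; ⟨_, jS b, x, d', jS_ok hJ, h1, h2, rfl,
        (congrArg (BG.kap _ · _) (un_one _ _ _)).trans h3⟩) ⟨_, s, x₄, m₄, o, st, ix, rfl, rfl⟩)
  exact ⟨_, _, fun k d' h => ⟨(key k d' h).1.imp fun _ k => (eq_sub_of_add_eq k).trans
    (add_sub_right_comm _ _ _), by
      have := (key k d' h).2
      rw [fm, mul_add, sub_eq_iff_eq_add, ← eq_sub_iff_add_eq] at this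
      simpa only [add_sub_assoc, add_assoc] using this⟩⟩

/-- **the local index facts** -/
theorem loc (hN : Ink3.Nil (J.xs l).N) (py : ∃ b, PY (J.xs l).D b) :
    ∃ δ₀ > 0, ∀ δ ∈ Ioc 0 δ₀, LocAt J c δ l := by
  obtain ⟨δ₁, p, I⟩ := Inv14.pInv κ (lam ⊕ lam) (k := 8) (by norm_num) (jX J l) (jX_ok hJ l) hN py
  refine ⟨min δ₁ dl0, lt_min p dl0_pos, fun δ ⟨h0, h⟩ => ?_⟩
  obtain ⟨h2, h1⟩ := le_min_iff.1 h
  replace I := I δ ⟨h0, h2⟩
  have hP : ∀ π ∈ ({hp l false} : Set _), S.M.sys.Piece c.1 π := fun _ h => h ▸ hπ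
  have ed : ∀ j ∈ EdP c {hp l false}, j = (⟨l, hl⟩, false) := by
    rintro ⟨⟨a, _⟩, e⟩ ⟨_, rfl, k⟩
    obtain ⟨rfl, rfl⟩ := hp_eq.1 k
    rfl
  have bs : ∀ {z : J.Obc c}, Go δ z {hp l false} → Bs (J.xs l).D (z.β l false) :=
    fun g => g.bs (⟨l, hl⟩, false) ⟨_, rfl, hp_self⟩
  have ex : ∀ z : J.Obc c, Go δ z {hp l false} → Ix δ z {hp l false} ∅ (ia δ z (hp l false)) ∧
      Ix δ z {hp l false} {hp l false} (ia δ z (hp l false) + idr δ z (hp l false)) := fun z g => by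
    have k := fun (P' : Set _) (hs : P' ⊆ {hp l false}) => Classical.epsilon_spec (exI hJ h0 h1 hP hs g
      (fun j k => ed j k ▸ hN) fun j k f => ed j k ▸ (I _ f (bs g)).1)
    rw [idr, add_sub_cancel]
    exact ⟨k ∅ (empty_subset _), k _ subset_rfl⟩
  have key : ∀ z z' : J.Obc c, z'.s = z.s → Go δ z {hp l false} → Go δ z' {hp l false} →
      (J.xs l).D.Eqv (z.β l false) (z'.β l false) → ∀ f d d', Ix δ z {hp l false} (spO f {hp l false}) d →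
      Ix δ z' {hp l false} (spO f {hp l false}) d' → (∃ m : ℤ, kI z' l - kI z l = m) ∧
        d' - (bif f then 6 else 8) * kI z' l = d - (bif f then 6 else 8) * kI z l := by
    intro z z' e g g' q f d d' k k'
    have pd := fun {y : J.Obc c} (g' : Go δ y _) q d => pd_go (γ := fun a => z.β a false) (f := f)
      (d := d) L.std (Ixc61.chStmt (by norm_num) (fun _ _ _ _ _ X => X.fred) Top36.kapStmt) hJ hπ h0 h1
      g' fun j k => ed j k ▸ ⟨hN, fun f => (I _ f (bs g')).1, (bs g).adm, q⟩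
    obtain ⟨k₀, v₀, h⟩ := core L g.bp hW hΛ hJ hm hl hπ h0 h1 (γ := fun a => z.β a false) (bs g).adm
      (I _ f (bs g)).1 (I _ f (bs g)).2
    obtain ⟨⟨m, a1⟩, a2⟩ := h _ _ (pd g (Pnt66.eqv_refl (bs g).ok (bs g).adm) d k)
    obtain ⟨⟨m', b1⟩, b2⟩ := h _ _ (bp_ext (b := g'.bp) (b' := g.bp) e ▸ pd g' q d' k')
    exact ⟨⟨m' - m, by rw [kI, kI, a1, b1]; push_cast; ring⟩, by rw [a2, b2]; ring⟩
  refine ⟨ex, fun z d g => ⟨fun k => ?_, fun k => ?_⟩, fun z z' e g g' q => ?_⟩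
  · exact_mod_cast sub_left_inj.1 (key z z rfl g g (Pnt66.eqv_refl (bs g).ok (bs g).adm) false _ _ (ex z g).1 k).2
  · exact_mod_cast sub_left_inj.1 (key z z rfl g g (Pnt66.eqv_refl (bs g).ok (bs g).adm) true _ _ (ex z g).2 k).2
  · have k1 := key z z' e g g' q false _ _ (ex z g).1 (ex z' g').1
    have k2 := (key z z' e g g' q true _ _ (ex z g).2 (ex z' g').2).2
    simp only [cond, Int.cast_add] at k1 k2
    exact ⟨k1.1, k1.2, by linarith [k1.2]⟩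

end Crest.Agent.X212.Add46
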