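import Crest.Agent.X212.Add46.Bg
import Crest.Agent.X212.M.Geq
import Crest.Agent.X212.M.Cut
import Crest.Agent.X212.Pj41.Nkg

/-!
# Row 212, P-ADD (helper46): the stages: some broken cylindrical walls are glued
-/

set_option autoImplicit false
set_option linter.unusedSectionVars false
noncomputable section
open scoped Manifold ContDiff Topology
open MeasureTheory Set Function Filter

namespace Crest.Agent.X212.Add46
open An M Nd18 Nk89 Cht98 Rf65 Cyf70 Pj41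
open Met55 (atx FAt fP)
open Dr59 (mf)

variable {Wi : Type} {X : Mf 4} {A κ lam : Type} [Fintype A] [Fintype κ] [Fintype lam]
  [DecidableEq lam] {M : Mark X A κ} {W : World M} {N : ML M lam} {Λ : Lns W N}
  {A' h : Type} [Fintype A'] [DecidableEq A'] [Fintype h] {r n : ℕ}
  {J : Job Wi Λ A' h r n} {c d d' : M.Cl} {b : Bp J c} {τ τ' : A → ℝ} {a : A}

/-- a neck in a background which agrees on the neck -/
def nkA {Y : Mf 3} [CompactSpace Y.M] {Z : Mf 4} {ι : Type} [Fintype ι] {D : YD Y.I Y.M κ ι}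
    {B : Base Z.M (Option κ) ι} {G G' : Geo Z.I Z.M (Option κ) ι} (K : Nk D B G)
    (h : Agr G G' K.ψ.target) (hG : G.F.IsVol) (hG' : G'.F.IsVol) : Nk D B G' :=
  { K with
    iso := ⟨K.iso.sm, K.iso.sm', fun a x hx => (K.iso.e a x hx).trans
      (h.e _ (K.ψ.map_source hx) a).symm, K.iso.μ.trans (h.μ hG hG').symm⟩
    a := fun a x hx => (h.a _ (K.ψ.map_source hx) a).trans (K.a a x hx) }

theorem mem_d (u : M.Up d c) (ha : a ∈ cylW c) : a ∈ d.1 ∧ ¬M.pin a ∨ a ∈ M.sys.fr d.1 :=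
  (em (a ∈ d.1)).imp (⟨·, ha.2⟩) fun k =>
    ⟨k, fun _ h' => c.2 ha.1 (u.1 h') (by rintro rfl; exact k h')⟩

theorem cyl_of (u : M.Up d c) (ha : a ∈ c.1 \ d.1) : a ∈ cylW c :=
  ⟨ha.1, fun k => ha.2 (u.2 a ha.1 k)⟩

theorem hZ_up (u : M.Up d d') (ha : a ∈ d.1 ∧ ¬M.pin a ∨ a ∈ M.sys.fr d.1)
    (ha' : a ∈ d'.1 ∧ ¬M.pin a ∨ a ∈ M.sys.fr d'.1) (z : (W.Z d').M) :
    hZ W.toCaps d a (W.up d d' z) = hZ W.toCaps d' a z := by
  rcases Cyl58.caps_surj W.toCaps z with ⟨x, hx, rfl⟩ | ⟨a', h1, h2, e, rfl⟩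
  · rw [W.up_φ u hx, hZ_φ _ ha (Mark.cores_mono u.1 hx), hZ_φ _ ha' hx]
  · rw [W.up_β u h1 h2]
    have k : hZ W.toCaps d' a (W.β d' a' e 0) = _ :=
      (Cyl58.capsD W.toCaps d').lift_cap _ _ ⟨(a', e), h1, h2⟩ (0 : V4)
    exact ((Cyl58.capsD W.toCaps d).lift_cap _ _ ⟨(a', e), u.2 _ h1 h2, h2⟩ (0 : V4)).trans k.symm

variable (b d) in
/-- the geometry of a frame -/
abbrev gF (F : Fr (W.Z d).I (W.Z d).M (Option κ)) :
    Geo (W.Z d).I (W.Z d).M (Option κ) (lam ⊕ lam) := ((Λ.Λ J.m d).ln (J.Θ b.s)).geo F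

variable (b d) in
/-- a frame on `Z d` with the necks of the broken walls of `c` -/
structure Stg : Type where
  up : M.Up d c
  F : Fr (W.Z d).I (W.Z d).M (Option κ)
  K : ∀ a ∈ cylW c, Bool → Nk (J.xs a).D (J.B d) (gF d b F)

namespace Stg
variable (s : Stg d b)

/-- the background with its ends -/
@[reducible] def E : EB κ (lam ⊕ lam) (W.Z d) :=
  ⟨J.B d, gF d b s.F, Ed d, fun i => ⟨jX J i.1, s.K i.1 ⟨s.up.1 i.1.2.1, i.1.2.2⟩ i.2, !i.2⟩⟩

/-- the piece `π` -/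
abbrev bg (π : Reg A) : BG κ (lam ⊕ lam) (W.Z d) :=
  s.E.bg (W.un d {π}) (Subtype.val : EdP d {π} → Ed d)

/-- the walls of `c` which are not in `d` are necks with the parameters `τ` -/
structure OK (τ : A → ℝ) : Prop where
  t1 : ∀ a ∈ d.1, τ a = 1
  t2 : ∀ a ∈ c.1 \ d.1, τ a ∈ Ico (1 / 2 : ℝ) 1
  vol : s.F.IsVol
  P : s.F.P = (J.B d).P
  o : ov (W.o d) s.F.e = (J.B d).o
  off : ∀ z, (∀ a ∈ c.1 \ d.1, (1 - τ a) / 2 ≤ |hZ W.toCaps d a z|) →
    atx s.F.e z = atx ((W.L J.m d).e (J.Θ b.s)) z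
  p : ∀ a ha e, (s.K a ha e).p = np (τ a) e
  q : ∀ a ha e, (s.K a ha e).q = nq (τ a) e
  ψ : ∀ a ha e x, x.2 ∈ (s.K a ha e).J → (s.K a ha e).ψ x = W.nj d a (J.g a x.1, li (τ a) e x.2)
  tgt : ∀ a ha e, (s.K a ha e).ψ.target = hZ W.toCaps d a ⁻¹' Hs (τ a) e
  eb : s.E.OK

end Stg

variable (b) in
/-- nothing is glued -/
@[reducible] def jS : Stg c b :=
  ⟨.refl c, W.F J.m c (J.Θ b.s), fun a ha e => J.K c a (some e) _ ⟨ha.2, b.br, b.O, ha.1⟩⟩

theorem jS_ok (hJ : J.OK) : (jS b).OK (J.Θ b.s).2 where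
  t1 _ ha := b.br.2 ha
  t2 _ ha := (ha.2 ha.1).elim
  vol := (W.L J.m c).F_vol _
  P := (W.L J.m c).F_P (Mark.mem_Ω _ b.O)
  o := (W.L J.m c).ov_F (Mark.mem_Ω _ b.O)
  off z _ := congrArg (atx · z) ((W.L J.m c).F_e (Mark.mem_Ω _ b.O))
  p a ha e := isNk_p (act b (⟨a, ha⟩, e)) (hJ.nk _ _ _ _ _)
  q a ha e := isNk_q (act b (⟨a, ha⟩, e)) (hJ.nk _ _ _ _ _)
  ψ a ha e _ := isNk_ψ (act b (⟨a, ha⟩, e)) (hJ.nk _ _ _ _ _)
  tgt a ha e := isNk_target (act b (⟨a, ha⟩, e)) (hJ.nk _ _ _ _ _)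
  eb := jE_ok hJ b

section ex
variable (hJ : J.OK) (hm : cylW c ⊆ J.m.1) (u : M.Up d c) (t1 : ∀ a ∈ d.1, τ a = 1)
  (t2 : ∀ a ∈ c.1 \ d.1, τ a ∈ Ico (1 / 2 : ℝ) 1)

open Classical in
variable (b τ) in
/-- the glued parameter -/
def pT : Prm A := ((J.Θ b.s).1, fun a => if a ∈ c.1 then τ a else (J.Θ b.s).2 a)

theorem pT_mem (ha : a ∈ c.1) : (pT b τ).2 a = τ a := if_pos ha

include u t1 t2

theorem tau_mem (ha : a ∈ c.1) : τ a ∈ Icc (1 / 2 : ℝ) 1 := by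
  by_cases k : a ∈ d.1
  · rw [t1 a k]; norm_num
  · exact Ico_subset_Icc_self (t2 a ⟨ha, k⟩)

theorem pT_br : pT b τ ∈ M.Br d.1 := by
  refine ⟨⟨fun a => ?_, b.br.1.2.mono fun a ha => ?_⟩, fun a ha => (pT_mem (u.1 ha)).trans (t1 a ha)⟩
  · by_cases k : a ∈ c.1
    · rw [pT_mem k]; exact ⟨by linarith [(tau_mem u t1 t2 k).1], (tau_mem u t1 t2 k).2⟩
    · simp only [pT, if_neg k]; exact b.br.1.1 a
  · by_cases k : a ∈ c.1
    · exact Sys.inf_subset _ (b.br.2 k)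
    · simpa only [pT, mem_support, if_neg k] using ha

theorem pT_O : pT b τ ∈ M.O d.1 := fun a ha => by
  by_cases k : a ∈ c.1
  · rw [pT_mem k]; exact (t2 a ⟨k, ha.1⟩).2
  · simp only [pT, if_neg k]
    exact (b.br.1.1 a).2.lt_of_ne fun e => k (Mark.inf_eq b.br b.O ▸ e)

include hm in
theorem nkOK (ha : a ∈ cylW c) : NkOK M J.m d (pT b τ) a :=
  (mem_d u ha).elim (fun k => .of_mem ha.2 k.1 (pT_O u t1 t2)) fun k => .of_fr ha.2 k (hm ha)
    (pT_O u t1 t2) (pT_br u t1 t2).1 (by rw [pT_mem ha.1]; exact (tau_mem u t1 t2 ha.1).1)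

theorem tv_pT (ha : a ∈ c.1) : Mark.tv d.1 (pT b τ).2 a = τ a := by
  by_cases k : a ∈ d.1
  · rw [Mark.tv_mem k, t1 a k]
  · rw [Mark.tv, if_neg k, pT_mem ha]

omit t1 t2 in
theorem lt_p (ha : a ∈ cylW c) : M.Lt d.1 (J.Θ b.s).2 a ∧ Mark.tv d.1 (J.Θ b.s).2 a = 1 :=
  (mem_d u ha).elim (fun k => ⟨.inl k.1, Mark.tv_mem k.1 _⟩) fun k =>
    have e : (J.Θ b.s).2 a = 1 := b.br.2 ha.1
    ⟨Mark.lt_of_br b.br.1 k (by rw [e]; norm_num), (Mark.tv_fr k _).trans e⟩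

include hm in
/-- off the middle of the neck the two frames agree -/
theorem e_eq (ha : a ∈ cylW c) {z : (W.Z d).M} (h1 : |hZ W.toCaps d a z| < 1)
    (h2 : (1 - τ a) / 2 ≤ |hZ W.toCaps d a z|) :
    atx ((W.L J.m d).e (pT b τ)) z = atx ((W.L J.m d).e (J.Θ b.s)) z := by
  have k := nkOK (b := b) hm u t1 t2 ha
  obtain ⟨y, -, e⟩ := exists_of_hZ W.toCaps k.mem (h1.trans (by norm_num))
  have o := k.off W.toCaps z
  obtain ⟨b', hb⟩ := exists_dom o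
  have l := k.lit_of hb h1.le
  have t := tau_mem u t1 t2 ha.1
  have o' : hZ W.toCaps d a z ≠ 0 := o.elim (fun k' h0 => by
    rw [tv_pT u t1 t2 ha.1] at k'; rw [h0, abs_zero] at h2; exact absurd k' (by simp; linarith)) id
  funext i
  generalize hZ W.toCaps d a z = s at *
  subst e
  refine (W.lit' (q := (y, s)) ha.2 l k.lt o _ i).trans (Eq.trans ?_
    (W.lit' (q := (y, s)) ha.2 l (lt_p u ha).1 (.inr o') _ i).symm)
  rw [tv_pT u t1 t2 ha.1, (lt_p u ha).2]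
  cases i
  · rw [Mark.nf, Mark.nf, Mark.wt_none ha.2, Mark.wt_none ha.2, sig_eq_sig_one t.1 h2]
  · rw [Mark.nf, Mark.nf, Mark.wt_some ha.2, Mark.wt_some ha.2]

open Classical in
variable (b d τ) in
/-- the glued frame -/
def hE (i : Option κ) (z : (W.Z d).M) : TangentSpace (W.Z d).I z :=
  if ∃ a ∈ c.1 \ d.1, |hZ W.toCaps d a z| < 1 then (W.L J.m d).e (pT b τ) i z
  else (W.L J.m d).e (J.Θ b.s) i z

include hm

theorem hE_off {z : (W.Z d).M} (h : ∀ a ∈ c.1 \ d.1, (1 - τ a) / 2 ≤ |hZ W.toCaps d a z|) :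
    atx (hE d b τ) z = atx ((W.L J.m d).e (J.Θ b.s)) z := funext fun i => by
  by_cases k : ∃ a ∈ c.1 \ d.1, |hZ W.toCaps d a z| < 1
  · obtain ⟨a, k1, k2⟩ := id k
    exact (if_pos k).trans (congrFun (e_eq hm u t1 t2 (cyl_of u k1) k2 (h a k1)) i)
  · exact if_neg k

theorem hE_nk (ha : a ∈ cylW c) {z : (W.Z d).M} (h : |hZ W.toCaps d a z| < 1) :
    atx (hE d b τ) z = atx ((W.L J.m d).e (pT b τ)) z := funext fun i => by
  by_cases k : ∃ a ∈ c.1 \ d.1, |hZ W.toCaps d a z| < 1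
  · exact if_pos k
  · refine (if_neg k).trans (congrFun (e_eq hm u t1 t2 ha h ?_) i).symm
    rw [t1 a (by_contra fun k' => k ⟨a, ⟨ha.1, k'⟩, h⟩)]; simp

theorem hE_loc (z : (W.Z d).M) : ∃ q, (q, z) ∈ M.Ω d.1 (W.φ d) ∧
    ∀ᶠ y in 𝓝 z, atx (hE d b τ) y = atx ((W.L J.m d).e q) y := by
  have ct := fun a (ha : a ∈ c.1 \ d.1) =>
    ((sm_hZ W.toCaps (mem_d u (cyl_of u ha))).continuous.abs.tendsto z)
  by_cases k : ∃ a ∈ c.1 \ d.1, |hZ W.toCaps d a z| < 1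
  · obtain ⟨a, k1, k2⟩ := k
    exact ⟨_, Mark.mem_Ω _ (pT_O u t1 t2) z, ((ct a k1).eventually (gt_mem_nhds k2)).mono
      fun y hy => hE_nk hm u t1 t2 (cyl_of u k1) hy⟩
  · simp only [not_exists, not_and, not_lt] at k
    refine ⟨J.Θ b.s, fun a ha => ?_, ?_⟩
    · by_cases k' : a ∈ c.1
      · refine .inr ?_
        rintro ⟨x, hx, e⟩
        obtain ⟨y, rfl⟩ := (M.bn a).mem_core.1 hx
        have := k a ⟨k', ha.1⟩
        rw [← show _ = z from e, show W.φ d _ = W.nj d a (y, 0) from rfl,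
          hZ_nj _ (.inr ha) (Mark.fr_not_mem ha ⟨_, rfl⟩) (by simp)] at this
        norm_num at this
      · exact .inl ((b.br.1.1 a).2.lt_of_ne fun e => k' (Mark.inf_eq b.br b.O ▸ e))
    · filter_upwards [(eventually_all_finite (toFinite (c.1 \ d.1))).2 fun a ha =>
        (ct a ha).eventually (lt_mem_nhds (show 1 / 2 < _ from (one_half_lt_one).trans_le (k a ha)))]
        with y hy
      exact hE_off hm u t1 t2 fun a ha => by linarith [hy a ha, (t2 a ha).1]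

include hJ in
/-- **the stages exist** -/
theorem exists_stg : ∃ s : Stg d b, s.OK τ := by
  have l := hE_loc (b := b) hm u t1 t2
  have fa : ∀ z, FAt (hE d b τ) z := fun z => let ⟨_, k1, k2⟩ := l z
    ((W.L J.m d).fAt k1).congr (k2.mono fun _ => congrFun)
  let F := Met55.rFr _ fa
  have v : F.IsVol := Met55.rFr_vol _ _
  have hP : F.P = (J.B d).P := by
    funext i k z
    obtain ⟨q, k1, k2⟩ := l z
    refine Eq.trans ?_ ((W.L J.m d).P_eq k1 i k)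
    rw [Met55.rFr_P, fP, fP, k2.self_of_nhds]
  have ho : ov (W.o d) F.e = (J.B d).o := by
    funext i k l' n z
    obtain ⟨q, k1, k2⟩ := l z
    refine Eq.trans ?_ ((W.L J.m d).ob q z k1 i k l' n)
    exact (cf_rel (W.Z d).dim (W.Z d).dim (f := id) (e := (W.L J.m d).e q) (e' := hE d b τ)
      (fun i => (DFunLike.congr_fun (Dr59.mf_id (I := (W.Z d).I) z) _).trans
        (congrFun k2.self_of_nhds i)) ((W.L J.m d).sp _ _ k1) (fa z).sp
      (by rw [Dr59.pm_id]; exact (W.ori d).same univ z trivial) _).symm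
  have O := pT_O (b := b) u t1 t2
  have nk := fun a => nkOK (b := b) (a := a) hm u t1 t2
  have ag : ∀ a ∈ cylW c, Agr (Λ.G J.m d (pT b τ)) (gF d b F) {z | |hZ W.toCaps d a z| < 1} :=
    fun a ha => by
      have e : ∀ z, |hZ W.toCaps d a z| < 1 → ∀ i, F.e i z = (W.F J.m d (pT b τ)).e i z :=
        fun z hz i => by
          rw [World.F, Lay.F_e _ (Mark.mem_Ω _ O)]; exact congrFun (hE_nk hm u t1 t2 ha hz) i
      refine ⟨isOpen_lt (sm_hZ _ (nk a ha).mem).continuous.abs continuous_const, e, fun z hz i => ?_⟩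
      obtain ⟨y, -, k⟩ := exists_of_hZ W.toCaps (nk a ha).mem (lt_trans hz (by norm_num))
      have o := (nk a ha).off W.toCaps z
      obtain ⟨b', hb⟩ := exists_dom o
      have l := (nk a ha).lit_of hb (le_of_lt hz)
      have k1 := W.lit' (q := (y, _)) ha.2 l (nk a ha).lt o (pT b τ).1 i
      rw [← (W.L J.m d).F_e (t := ((pT b τ).1, (pT b τ).2)) (Mark.mem_Ω _ O)] at k1
      have k2 := e _ (k.symm ▸ hz) i
      rw [← k]
      refine (congrArg (fun w => Line51.rl (((Λ.Λ J.m d).ln _).cm _ _ w)) (k2.trans k1)).trans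
        (Eq.trans ?_ (congrArg (fun w => Line51.rl (((Λ.Λ J.m d).ln _).cm _ _ w)) k1).symm)
      exact congrArg Line51.rl ((Λ.cm_lit (q := (y, _)) l hz (lt_p u ha).1 _ _).trans
        (Λ.cm_lit (q := (y, _)) l hz (nk a ha).lt _ _).symm)
  let K := fun a (ha : a ∈ cylW c) e => (nk a ha).nk (J.g a) Λ (hJ.xs a).1.vol (hJ.iso a ha.2) e
  have tv := fun a (ha : a ∈ cylW c) => tv_pT (b := b) u t1 t2 ha.1
  have k := endIn_W (Θ := fun _ : T0 => pT b τ) (Q := univ) (xs := J.xs) (g := J.g)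
    (K := fun i : Ed d => K i.1 ⟨u.1 i.1.2.1, i.1.2.2⟩ i.2) Λ (pT_br u t1 t2) O (fun _ _ => O)
    (wFam_ok Λ O isOpen_univ contDiffOn_const (fun _ _ => O) isClopen_empty isClopen_empty
      subset_rfl) (fun a => (hJ.xs a).1) fun i => by
      have ac : Act J.m d i.1.1 (some i.2) (pT b τ) := ⟨i.1.2.2, pT_br u t1 t2, O, i.1.2.1⟩
      refine ⟨?_, ?_, fun y s h1 h2 => ?_⟩
      · rw [NkOK.nk_p, act_tv ac, ← act_np ac]; rfl
      · rw [NkOK.nk_q, act_tv ac, ← act_nq ac]; rfl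
      · rw [NkOK.nk_ψ, act_tv ac]; exact congrArg _ (Prod.ext rfl (li_len ((act_Hs ac).2 ⟨h1, h2⟩)))
  refine ⟨⟨u, F, fun a ha e => nkA (K a ha e) ((ag a ha).mono (K a ha e).ψ.open_target
    fun z hz => abs_lt.2 hz.1) ((W.L J.m d).F_vol _) v⟩, t1, t2, v, hP, ho,
    fun z => hE_off hm u t1 t2, fun a ha e => tv a ha ▸ rfl, fun a ha e => tv a ha ▸ rfl,
    fun a ha e x _ => tv a ha ▸ rfl, fun a ha e => tv a ha ▸ rfl, fun _ => jX_ok hJ _, Λ.B_ok _ _,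
    ?_, fun i => ⟨(k.st i).p, (k.st i).q⟩, k.dis, k.cov⟩
  have := ((Λ.Λ J.m d).ok (J.Θ b.s)).geo_ok v (J.B d).o
  rwa [hP] at this

end ex

end Crest.Agent.X212.Add46
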