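import Crest.Agent.X212.G75.Defs
import Crest.Agent.X212.Idg99.Md

/-!
# Row 212, P-ADD (helper46): two small leaves
-/

set_option autoImplicit false
noncomputable section
open scoped Manifold ContDiff Topology
open MeasureTheory Set Function

namespace Crest.Agent.X212.Add46
open An M G75 Idg99

/-- **LEAF ADD-CMB**: a piece `π` of `d` is cut along the inner wall `a` into `ρ false`, `ρ true` -/
def CmbStmt : Prop := ∀ (X A : Type) [TopologicalSpace X] [ConnectedSpace X] [Finite A]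
  (S : Sys X A) (c d : Set A) (π : Reg A), S.Cell c → d ⊆ c → S.Piece d π →
  (c ∩ S.inn π = ∅ → S.Piece c π ∧ {ρ | S.Piece c ρ ∧ S.U ρ ⊆ S.U π} = {π}) ∧
  ∀ a ∈ c ∩ S.inn π, ∃ ρ : Bool → Reg A, (∀ b, S.Piece (insert a d) (ρ b) ∧ ρ b a = some b ∧
      S.U (ρ b) = S.U π ∩ (S.w a).sd b) ∧
    (∀ a' b', a' ≠ a → (π a' = some b' ↔ ∃ b, ρ b a' = some b')) ∧
    (∀ a', a' ≠ a → ρ false a' = none ∨ ρ true a' = none) ∧
    {ρ' | S.Piece c ρ' ∧ S.U ρ' ⊆ S.U π} = {ρ' | S.Piece c ρ' ∧ S.U ρ' ⊆ S.U (ρ false)} ∪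
      {ρ' | S.Piece c ρ' ∧ S.U ρ' ⊆ S.U (ρ true)} ∧
    Disjoint {ρ' | S.Piece c ρ' ∧ S.U ρ' ⊆ S.U (ρ false)} {ρ' | S.Piece c ρ' ∧ S.U ρ' ⊆ S.U (ρ true)} ∧
    c ∩ S.inn π = insert a (c ∩ S.inn (ρ false) ∪ c ∩ S.inn (ρ true)) ∧
    Disjoint (S.inn (ρ false)) (S.inn (ρ true)) ∧ (∀ b, a ∉ S.inn (ρ b)) ∧
    ∀ b, ∃ ρ', S.Piece c ρ' ∧ S.U ρ' ⊆ S.U (ρ b) ∧ ρ' a = some b

/-- **LEAF ADD-ROOT**: the numbers of a closed piece for any frame with the right projector -/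
def RootStmt : Prop := ∀ (κ lam : Type) [Fintype κ] [Fintype lam] [DecidableEq lam] (Lm : LM κ lam)
  (S : Scene Lm) (i : S.L) (W : World S.M) (Λ : Lns W (S.N i)) (m c : S.M.Cl) (π : Reg S.A)
  (p : Prm S.A) (F : Fr (W.Z c).I (W.Z c).M (Option κ)) (β sg l2 : ℝ), S.M.sys.Piece c.1 π →
  (∀ a ∈ Sys.bd π, S.M.pin a) → F.IsVol → F.P = (Λ.B m c).P → ov (W.o c) F.e = (Λ.B m c).o →
  S.Nb i (S.M.sys.U π) β sg l2 →
  ∫ x in W.pc c π, -(3 * (eud F (Λ.B m c).o x + sgd F (Λ.B m c).o x) / 2) ∂F.μ = -3 * β ∧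
  ∫ x in W.pc c π, (lad (Λ.B m c) (((Λ.Λ m c).ln p).geo F) x - sgd F (Λ.B m c).o x) / 2 ∂F.μ =
    (l2 - sg) / 2

end Crest.Agent.X212.Add46
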