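import Crest.Agent.X212.Add46.Hy
import Crest.Agent.X212.Add46.Rel

/-!
# Row 212, P-ADD (helper46): comparison of two stages, one side of a cut
-/

set_option autoImplicit false
set_option linter.unusedSectionVars false
noncomputable section
open scoped Manifold ContDiff Topology
open MeasureTheory Set Function Filter

namespace Crest.Agent.X212.Add46
open An M Nd18 Nk89 Cht98 Rf65 Cyf70 Pj41 Cyl58
open Met55 (atx)
open Dr59 (mf)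

theorem mem_J1 {e : Bool} {r : ℝ} : r ∈ Jv (np 1 e) (nq 1 e) ↔ 0 < -pm e * r := by
  cases e <;> simp [Jv, np, nq, pm]

theorem mem_Jt {t : ℝ} (h : t < 1) {e : Bool} {r : ℝ} :
    r ∈ Jv (np t e) (nq t e) ↔ 0 < -pm e * r ∧ -pm e * r < nl t := by
  cases e <;> simp [Jv, np, nq, pm, h]
  constructor <;> rintro ⟨_, _⟩ <;> constructor <;> linarith

theorem mem_H1 {e : Bool} {s : ℝ} : s ∈ Hs 1 e ↔ |s| < 1 ∧ 0 < pm e * s := by
  cases e <;> simp [Hs, dom, pm, abs_lt]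

theorem abs_of_pm {e : Bool} {s : ℝ} (h : 0 < pm e * s) : |s| = pm e * s := by
  rw [← abs_of_pos h, abs_mul, abs_pm, one_mul]

variable {Wi : Type} {X : Mf 4} {A κ lam : Type} [Fintype A] [Fintype κ] [Fintype lam]
  [DecidableEq lam] {M : Mark X A κ} {W : World M} {N : ML M lam} {Λ : Lns W N}
  {A' H : Type} [Fintype A'] [DecidableEq A'] [Fintype H] {r n : ℕ}
  {J : Job Wi Λ A' H r n} {c d d' : M.Cl} {b : Bp J c} {τ τ' : A → ℝ} {a : A} {π ρ : Reg A}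
  {e : Bool}

/-- a point of a piece near a wall -/
theorem nj_pc (ha : a ∈ d.1 ∧ ¬M.pin a ∨ a ∈ M.sys.fr d.1) (hπ : M.sys.Piece d.1 π)
    {z : (W.Z d).M} (hz : |hZ W.toCaps d a z| < 1) :
    ∃ y, z ∈ W.pc d π ↔ (M.bn a).j (y, hZ W.toCaps d a z) ∈ M.sys.U π :=
  let ⟨y, k1, k2⟩ := exists_of_hZ W.toCaps ha (hz.trans (by norm_num))
  ⟨y, (iff_of_eq (congrArg (· ∈ W.pc d π) k2.symm)).trans (φ_mem_pc W.toCaps hπ k1)⟩

theorem inn_pc (ha : a ∈ d.1 ∧ ¬M.pin a ∨ a ∈ M.sys.fr d.1) (hπ : M.sys.Piece d.1 π)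
    (hi : a ∈ M.sys.inn π) {z : (W.Z d).M} (hz : |hZ W.toCaps d a z| < 1) : z ∈ W.pc d π :=
  let ⟨_, k⟩ := nj_pc ha hπ hz; k.2 (hi.2.1 ⟨_, rfl⟩)

theorem end_pc (ha : a ∈ cylW d) (hπ : M.sys.Piece d.1 π) {z : (W.Z d).M}
    (hz : hZ W.toCaps d a z ∈ Hs 1 e) : z ∈ W.pc d π ↔ π a = some e := by
  have := M.con
  obtain ⟨y, k⟩ := nj_pc (.inl ha) hπ (mem_H1.1 hz).1
  have k' : (M.bn a).j (y, _) ∈ (M.sys.w a).half e := ⟨⟨_, rfl⟩, (M.bn a).j_mem_sd.2 (mem_H1.1 hz).2⟩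
  exact k.trans ⟨fun h => hπ.eq_some d.2 ha.1 h k', fun h => hπ.adj _ _ h k'⟩

theorem sgn_pc (ha : a ∈ cylW d) (hπ : M.sys.Piece d.1 π) (h : π a = some e) {z : (W.Z d).M}
    (hz : z ∈ W.pc d π) : 0 < pm e * hZ W.toCaps d a z := by
  rcases caps_surj W.toCaps z with ⟨x, hx, rfl⟩ | ⟨a', h1, h2, e', rfl⟩
  · rw [hZ_φ _ (.inl ha) hx]
    exact (M.bn a).mem_sd.1 ((φ_mem_pc W.toCaps hπ hx).1 hz a e h)
  · have k : hZ W.toCaps d a (W.β d a' e' 0) = _ :=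
      (capsD W.toCaps d).lift_cap _ _ ⟨(a', e'), h1, h2⟩ (0 : V4)
    rw [k]
    exact (M.bn a).mem_sd.1 (hπ.toIsReg.band_subset (fun k : a' = a => ha.2 (k ▸ h2)) h
      (Sys.mem_bd_of ((β_mem_pc W.toCaps hπ h1 h2 _).1 hz)) ⟨_, rfl⟩)

theorem up_pc (u : M.Up d d') (hπ : M.sys.Piece d.1 π) (hρ : M.sys.Piece d'.1 ρ)
    (hU : M.sys.U ρ ⊆ M.sys.U π) (hb : ∀ a e, M.pin a → ρ a = some e → π a = some e)
    {z : (W.Z d').M} (hz : z ∈ W.pc d' ρ) : W.up d d' z ∈ W.pc d π := by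
  rcases caps_surj W.toCaps z with ⟨x, hx, rfl⟩ | ⟨a', h1, h2, e', rfl⟩
  · rw [W.up_φ u hx, φ_mem_pc W.toCaps hπ (Mark.cores_mono u.1 hx)]
    exact hU ((φ_mem_pc W.toCaps hρ hx).1 hz)
  · rw [W.up_β u h1 h2, β_mem_pc W.toCaps hπ (u.2 _ h1 h2) h2]
    exact hb _ _ h2 ((β_mem_pc W.toCaps hρ h1 h2 _).1 hz)

namespace Stg.OK
variable {s : Stg d b} {s' : Stg d' b} (h : s.OK τ) (h' : s'.OK τ') (u : M.Up d d')
  (ha : a ∈ cylW c) {x : (J.xs a).Y.M × ℝ}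
include h

theorem J_eq (e : Bool) : (s.K a ha e).J = Jv (np (τ a) e) (nq (τ a) e) := by
  rw [Nk.J, h.p, h.q]

theorem tm (ha : a ∈ c.1) : τ a ∈ Icc (1 / 2 : ℝ) 1 := tau_mem s.up h.t1 h.t2 ha

theorem li (hx : x.2 ∈ (s.K a ha e).J) : li (τ a) e x.2 ∈ Hs (τ a) e :=
  li_mem (h.tm ha.1).2 (h.J_eq ha e ▸ hx)

theorem nc (hx : x.2 ∈ (s.K a ha e).J) :
    (M.bn a).j (J.g a x.1, Cht98.li (τ a) e x.2) ∉ M.sys.cores d.1 :=
  Mark.j_not_mem d ((mem_d s.up ha).imp_left fun k => ⟨k.1,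
    (dom_off (h.li ha hx).2).resolve_left (h.t1 a k.1).not_lt⟩)

theorem hZ_ψ (hx : x.2 ∈ (s.K a ha e).J) :
    hZ W.toCaps d a ((s.K a ha e).ψ x) = Cht98.li (τ a) e x.2 := by
  rw [h.ψ a ha e x hx]
  exact hZ_nj _ (mem_d s.up ha) (h.nc ha hx) ((abs_lt.2 (h.li ha hx).1).le.trans (by norm_num))

include h' u in
theorem up_ψ (hx : x.2 ∈ (s.K a ha e).J) (hx' : x.2 ∈ (s'.K a ha e).J)
    (l : Cht98.li (τ a) e x.2 = Cht98.li (τ' a) e x.2) :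
    W.up d d' ((s'.K a ha e).ψ x) = (s.K a ha e).ψ x := by
  rw [h.ψ a ha e x hx, h'.ψ a ha e x hx', l]
  exact W.up_φ u (h'.nc ha hx')

theorem ls (hπ : M.sys.Piece d.1 π) :
    s.E.Ls (W.un d {π}) (Subtype.val : EdP d {π} → Ed d) := by
  have k : ∀ i : Ed d, ∀ z ∈ (s.E.E i).K.ψ.target, z ∈ W.un d {π} ↔ π i.1 = some i.2 :=
    fun i z hz => by
      rw [un_one]
      refine end_pc i.1.2 hπ ?_
      rw [← h.t1 _ i.1.2.1]
      exact (h.tgt _ _ _).le hz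
  exact ⟨Subtype.val_injective, fun ⟨i, _, rfl, h2⟩ z hz => (k i z hz).2 h2,
    fun i hi => disjoint_left.2 fun z h1 h2 => hi ⟨⟨i, π, rfl, (k i z h1).1 h2⟩, rfl⟩⟩

theorem ok (hπ : M.sys.Piece d.1 π) (f : Bool) : (s.bg π).OK (spO f (W.un d {π})) :=
  have k : IsClopen (W.un d {π}) := un_one W.toCaps d π ▸ isClopen_pc _ hπ
  h.eb.ok k (Glc56.clopen_spO f k) (by cases f; exacts [empty_subset _, subset_rfl]) (h.ls hπ)

include h' u in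
/-- **two stages agree** where the necks have the same profile -/
theorem rel (hJ : J.OK) (hW : W.Nrm) (hΛ : Λ.Nrm) (hm : cylW c ⊆ J.m.1) {O : Set (W.Z d').M} (hO : IsOpen O)
    (hH : ∀ z ∈ O, ∀ a ∈ c.1 \ d.1, a ∉ d'.1 ∧ τ a = τ' a ∨ 1 / 4 ≤ |hZ W.toCaps d' a z|) :
    GRel (J.B d') (gF d' b s'.F) (J.B d) (gF d b s.F) (W.up d d') O := by
  have m : d'.1 \ d.1 ⊆ J.m.1 := fun a k => hm (cyl_of s.up ⟨s'.up.1 k.1, k.2⟩)
  have br : Mark.mp d' (J.Θ b.s) = J.Θ b.s := Mark.mp_br ⟨b.br.1, s'.up.1.trans b.br.2⟩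
  have fr : FRel s'.F s.F (W.up d d') O := ⟨hO, fun z _ => (W.up_oe u).loc z, fun i z hz => by
    by_cases k : ∃ a ∈ c.1 \ d.1, |hZ W.toCaps d' a z| < 1 / 4
    · obtain ⟨a, k1, k2⟩ := k
      obtain ⟨k3, k4⟩ := (hH z hz a k1).resolve_right k2.not_ge
      have ha := cyl_of s.up k1
      have j : (s.K a ha false).J = (s'.K a ha false).J := by rw [h.J_eq, h'.J_eq, k4]
      refine ((nk_nk (X := jX J a) (s'.K a ha false) (s.K a ha false) (jX_ok hJ a).ok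
        h'.vol).fr.congr (χ := W.up d d') fun y hy => ?_).e i z ?_
      · have y1 := (s'.K a ha false).tgt.ge hy.1
        have y2 := (s'.K a ha false).snd_symm y1
        exact (congrArg _ ((s'.K a ha false).ψ.right_inv y1).symm).trans
          (h.up_ψ h' u ha (y2 ▸ hy.2) (y2 ▸ hy.1) (by rw [k4]))
      · rw [j, inter_self]
        exact (s'.K a ha false).tgt.le ((h'.tgt _ _ _).ge
          ⟨abs_lt.1 (k2.trans (by norm_num)), .inl (h'.t2 a ⟨k1.1, k3⟩).2⟩)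
    · simp only [not_exists, not_and, not_lt] at k
      have k1 := h'.off z fun a ha => by
        linarith [k a ⟨ha.1, fun k' => ha.2 (u.1 k')⟩, (h'.t2 a ha).1]
      have k2 := h.off (W.up d d' z) fun a ha => by
        rw [hZ_up u (mem_d s.up (cyl_of s.up ha)) (mem_d s'.up (cyl_of s.up ha))]
        linarith [k a ha, (h.t2 a ha).1]
      refine (congrArg (mf (W.Z d').I (W.Z d).I (W.up d d') z) (congrFun k1 i)).trans
        ((hW.e J.m d d' u m _ z i).trans ?_)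
      rw [br]; exact (congrFun k2 i).symm⟩
  classical
  refine fr.gRel (hΛ.B hW u m) fun i z hz => (geo_a_nat (K := (Λ.Λ J.m d').ln (J.Θ b.s))
    (L := (Λ.Λ J.m d).ln (J.Θ b.s)) (((Λ.Λ J.m d).ok _).sm _ trivial) (W.md_up u z)
    (.of_eq (funext (hΛ.p J.m d d' u m))) ?_ (fr.e i z hz)).symm
  have := congrFun (hΛ.a J.m d d' u m (J.Θ b.s)) z
  rwa [br] at this

end Stg.OK

/-- the stage `s'` contains the side `e` of the wall `a` inside `π` -/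
structure Sid (s : Stg d b) (s' : Stg d' b) (τ τ' : A → ℝ) (π ρ : Reg A) (a : A) (e : Bool) :
    Prop where
  hJ : J.OK
  hW : W.Nrm
  hΛ : Λ.Nrm
  hm : cylW c ⊆ J.m.1
  h : s.OK τ
  h' : s'.OK τ'
  u : M.Up d d'
  ha : a ∈ cylW c
  a' : a ∈ d'.1
  pi : M.sys.Piece d.1 π
  rho : M.sys.Piece d'.1 ρ
  inn : a ∈ M.sys.inn π
  re : ρ a = some e
  U : M.sys.U ρ ⊆ M.sys.U π
  bd : ∀ a' e', a' ≠ a → ρ a' = some e' → π a' = some e'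
  t : ∀ a' ∈ c.1 \ d'.1, τ a' = τ' a'

namespace Sid
variable {s : Stg d b} {s' : Stg d' b} (S : Sid s s' τ τ' π ρ a e) {x : (J.xs a).Y.M × ℝ}
  {z : (W.Z d').M} {R : ℝ}

/-- the finite neck -/
abbrev K := s.K a S.ha e

/-- the end -/
abbrev K' := s'.K a S.ha e

open Classical in
/-- the map from the side to the glued stage -/
def Φ (z : (W.Z d').M) : (W.Z d).M :=
  if z ∈ S.K'.ψ.target then S.K.ψ (S.K'.ψ.symm z) else W.up d d' z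

/-- the side without the deep part of the end -/
def T (R : ℝ) : Set (W.Z d').M := W.un d' {ρ} \ S.K'.tm ⁻¹' {t | R ≤ -pm e * t}

include S

theorem nd : a ∈ c.1 \ d.1 := ⟨S.ha.1, fun k => S.pi.not_inn a k S.inn⟩

theorem cd : a ∈ cylW d' := ⟨S.a', S.ha.2⟩

theorem J' {t : ℝ} : t ∈ S.K'.J ↔ 0 < -pm e * t := by rw [S.h'.J_eq, S.h'.t1 a S.a', mem_J1]

theorem Jt {t : ℝ} : t ∈ S.K.J ↔ 0 < -pm e * t ∧ -pm e * t < nl (τ a) := by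
  rw [S.h.J_eq, mem_Jt (S.h.t2 a S.nd).2]

theorem tg : z ∈ S.K'.ψ.target ↔ hZ W.toCaps d' a z ∈ Hs 1 e := by
  rw [S.h'.tgt, S.h'.t1 a S.a', mem_preimage]

theorem Φ_ψ (hx : x.2 ∈ S.K'.J) : S.Φ (S.K'.ψ x) = S.K.ψ x := by
  have k := S.K'.mem_src.2 hx
  rw [Φ, if_pos (S.K'.ψ.map_source k), S.K'.ψ.left_inv k]

theorem Φ_up (hz : 1 / 4 ≤ |hZ W.toCaps d' a z|) : S.Φ z = W.up d d' z := by
  by_cases k : z ∈ S.K'.ψ.target
  · obtain ⟨x, hx, rfl⟩ := S.K'.ψ.surjOn k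
    have k1 := S.K'.mem_src.1 hx
    have k2 := S.h.t2 a S.nd
    have k3 := S.h'.t1 a S.a'
    rw [abs_of_pm (mem_H1.1 (S.tg.1 k)).2, S.h'.hZ_ψ S.ha k1, k3] at hz
    obtain ⟨k4, k5⟩ := li_eq_li_one k2.1 k2.2 (mem_J1.2 (S.J'.1 k1)) (by linarith [k2.1])
    exact (S.Φ_ψ k1).trans (S.h.up_ψ S.h' S.u S.ha (S.h.J_eq _ e ▸ k4) k1 (k3 ▸ k5)).symm
  · exact if_neg k

theorem ψ_T (hx : x.2 ∈ S.K'.J) (h : -pm e * x.2 < R) : S.K'.ψ x ∈ S.T R := by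
  have k := S.K'.mem_src.2 hx
  refine ⟨(un_one W.toCaps d' ρ).ge ((end_pc S.cd S.rho (S.tg.1 (S.K'.ψ.map_source k))).2 S.re), ?_⟩
  rw [mem_preimage, S.K'.tm_ψ _ k]; exact h.not_ge

theorem out_T (hR : 0 < R) (hz : z ∈ W.pc d' ρ) (h : 1 ≤ |hZ W.toCaps d' a z|) : z ∈ S.T R :=
  ⟨(un_one W.toCaps d' ρ).ge hz, fun k =>
    (mem_H1.1 (S.tg.1 (S.K'.tgt.ge (S.J'.2 (hR.trans_le k))))).1.not_ge h⟩

theorem pc_T (hz : z ∈ S.T R) : z ∈ W.pc d' ρ := (un_one W.toCaps d' ρ).le hz.1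

theorem T_cases (hz : z ∈ S.T R) : (∃ x, x.2 ∈ S.K'.J ∧ -pm e * x.2 < R ∧ S.K'.ψ x = z) ∨
    1 ≤ pm e * hZ W.toCaps d' a z ∧ S.Φ z = W.up d d' z := by
  by_cases k : z ∈ S.K'.ψ.target
  · exact .inl ⟨_, S.K'.mem_src.1 (S.K'.ψ.map_target k), S.K'.snd_symm k ▸ not_le.1 hz.2,
      S.K'.ψ.right_inv k⟩
  · have k1 := sgn_pc S.cd S.rho S.re (S.pc_T hz)
    exact .inr ⟨abs_of_pm k1 ▸ not_lt.1 fun k2 => k (S.tg.2 (mem_H1.2 ⟨k2, k1⟩)), if_neg k⟩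

theorem hZ_eq (z : (W.Z d').M) : hZ W.toCaps d a (W.up d d' z) = hZ W.toCaps d' a z :=
  hZ_up S.u (mem_d s.up S.ha) (mem_d s'.up S.ha) z

theorem isOpen_T (R : ℝ) : IsOpen (S.T R) := (S.h'.ok S.rho true).cl.2.sdiff
  ((isClosed_le continuous_const (by fun_prop)).preimage S.K'.cont)

variable (hR : R ≤ nl (τ a))
include hR

theorem JK (hx : x.2 ∈ S.K'.J) (h : -pm e * x.2 < R) : x.2 ∈ S.K.J :=
  S.Jt.2 ⟨S.J'.1 hx, h.trans_le hR⟩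

theorem hZ_lt (hx : x.2 ∈ S.K'.J) (h : -pm e * x.2 < R) : |hZ W.toCaps d a (S.K.ψ x)| < 1 := by
  rw [S.h.hZ_ψ S.ha (S.JK hR hx h)]; exact abs_lt.2 (S.h.li S.ha (S.JK hR hx h)).1

theorem grel : GRel (J.B d') (gF d' b s'.F) (J.B d) (gF d b s.F) S.Φ (S.T R) := by
  refine gr_loc (S.isOpen_T R) rfl fun z hz => ?_
  rcases S.T_cases hz with ⟨x, k1, k2, rfl⟩ | ⟨k1, -⟩
  · refine ⟨_, _, ?_, nk_nk (X := jX J a) S.K' S.K (jX_ok S.hJ a).ok S.h'.vol,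
      fun y hy => if_pos (S.K'.tgt.ge hy.1)⟩
    rw [mem_preimage, S.K'.tm_ψ _ (S.K'.mem_src.2 k1)]; exact ⟨k1, S.JK hR k1 k2⟩
  · refine ⟨W.pc d' ρ ∩ {y | 1 / 4 < |hZ W.toCaps d' a y|}, _, ⟨S.pc_T hz, ?_⟩,
      S.h.rel S.h' S.u S.hJ S.hW S.hΛ S.hm ((isOpen_pc _ S.rho).inter (isOpen_lt continuous_const
        (sm_hZ _ (.inl S.cd)).continuous.abs)) fun y hy a' ha' => ?_, fun y hy => S.Φ_up (le_of_lt hy.2)⟩
    · rw [mem_ofPred_eq, abs_of_pm (one_pos.trans_le k1)]; linarith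
    · by_cases k : a' ∈ d'.1
      · refine .inr (not_lt.1 fun k2 => ?_)
        have k3 : a' ∈ cylW d' := ⟨k, (cyl_of s.up ha').2⟩
        obtain ⟨e', k4⟩ := exists_dom (t := 1) (.inr (hZ_ne W.toCaps k k3.2 y))
        exact ha'.2 (S.pi.bd_subset (Sys.mem_bd_of (S.bd a' e' (by rintro rfl; exact lt_asymm k2 hy.2)
          ((end_pc k3 S.rho ⟨abs_lt.1 (k2.trans (by norm_num)), k4⟩).1 hy.1))))
      · exact .inl ⟨k, S.t a' ⟨ha'.1, k⟩⟩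

theorem inj : InjOn S.Φ (S.T R) := fun z hz w hw k => by
  rcases S.T_cases hz with ⟨x, k1, k2, rfl⟩ | ⟨k1, k2⟩ <;>
    rcases S.T_cases hw with ⟨y, k3, k4, rfl⟩ | ⟨k3, k4⟩
  · rw [S.Φ_ψ k1, S.Φ_ψ k3] at k
    rw [S.K.ψ.injOn (S.K.mem_src.2 (S.JK hR k1 k2)) (S.K.mem_src.2 (S.JK hR k3 k4)) k]
  · have := S.hZ_lt hR k1 k2
    rw [← S.Φ_ψ k1, k, k4, S.hZ_eq, abs_of_pm (one_pos.trans_le k3)] at this
    exact (this.not_ge k3).elim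
  · have := S.hZ_lt hR k3 k4
    rw [← S.Φ_ψ k3, ← k, k2, S.hZ_eq, abs_of_pm (one_pos.trans_le k1)] at this
    exact (this.not_ge k1).elim
  · exact (W.up_oe S.u).inj (k2.symm.trans (k.trans k4))

theorem maps : S.Φ '' S.T R ⊆ W.un d {π} := by
  rintro _ ⟨z, hz, rfl⟩
  rw [un_one]
  rcases S.T_cases hz with ⟨x, k1, k2, rfl⟩ | ⟨-, k⟩
  · exact S.Φ_ψ k1 ▸ inn_pc (mem_d s.up S.ha) S.pi S.inn (S.hZ_lt hR k1 k2)
  · exact k ▸ up_pc S.u S.pi S.rho S.U (fun a' e' p => S.bd a' e' fun k => S.ha.2 (k ▸ p)) (S.pc_T hz)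

instance (c : M.Cl) : Nonempty (W.Z c).M := have := M.con; ⟨W.φ c (Classical.arbitrary _)⟩

/-- **the patch of one side** -/
def gp : GP (s.bg π) (s'.bg ρ) :=
  gpL (S.h.ok S.pi true) (S.h'.ok S.rho true) (φ := (grH (S.grel hR) (S.inj hR)).symm)
    (gr_symm (φ := grH (S.grel hR) (S.inj hR)) (S.grel hR) S.h'.vol S.h.vol) (S.maps hR) sdiff_subset

theorem gp_src : (S.gp hR).φ.source = S.Φ '' S.T R := rfl

theorem gp_Φ (hz : z ∈ S.T R) : (S.gp hR).φ (S.Φ z) = z := (grH (S.grel hR) (S.inj hR)).left_inv hz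

theorem gp_U (hz : z ∈ S.T R) : (S.gp hR).U (S.Φ z) = (fun i j => (J.B d).P i j (S.Φ z)) ∧
    (S.gp hR).v (S.Φ z) = (J.B d).l (S.Φ z) :=
  ⟨funext₂ fun i j => (congrArg ((J.B d').P i j) (S.gp_Φ hR hz)).trans ((S.grel hR).P i j z hz),
    (congrArg (J.B d').l (S.gp_Φ hR hz)).trans ((S.grel hR).l z hz)⟩

theorem gp_sp (f : Bool) : (S.gp hR).Sp (spO f (W.un d {π})) (spO f (W.un d' {ρ})) := fun _ k => by
  cases f
  exacts [Iff.rfl, iff_of_true ((S.gp hR).sub' ((S.gp hR).φ.map_source k)) ((S.gp hR).sub k)]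

theorem gp_mk (h0 : 0 < R) {a' : A} (ha' : a' ∈ cylW c) {e' : Bool} (ne : a' ≠ a)
    (h : ρ a' = some e') : (S.gp hR).Mk (X := jX J a') (s.K a' ha' e') (s'.K a' ha' e') (!e') := by
  have k0 := S.pi.bd_subset (Sys.mem_bd_of (S.bd a' e' ne h))
  have k1 := S.h.t1 a' k0
  have k2 := S.h'.t1 a' (S.u.1 k0)
  refine gpL_mk _ _ _ _ _ fun x hx => ?_
  have k3 : x.2 ∈ Jv (np 1 e') (nq 1 e') := mem_J1.2 (by cases e' <;> simpa [pm, En.ht] using hx.2)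
  have k4 : x.2 ∈ (s'.K a' ha' e').J := by rwa [S.h'.J_eq, k2]
  have k5 := S.h'.li ha' k4
  rw [← S.h'.hZ_ψ ha' k4, k2] at k5
  have k6 : 1 ≤ |hZ W.toCaps d' a ((s'.K a' ha' e').ψ x)| := not_lt.1 fun k => disjoint_left.1
    (disjoint_hZ W.toCaps (.inl S.cd) (.inl ⟨S.u.1 k0, ha'.2⟩) (c.2 S.ha.1 ha'.1 ne.symm))
    (show _ < (3 : ℝ) from k.trans (by norm_num))
    (show _ < (3 : ℝ) from (mem_H1.1 k5).1.trans (by norm_num))
  have k7 := S.out_T h0 ((end_pc ⟨S.u.1 k0, ha'.2⟩ S.rho k5).2 h) k6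
  have k8 := (S.Φ_up (le_trans (by norm_num) k6)).trans
    (S.h.up_ψ S.h' S.u ha' (by rwa [S.h.J_eq, k1]) k4 (by rw [k1, k2]))
  exact ⟨k4, ⟨_, k7, k8⟩, k8 ▸ S.gp_Φ hR k7⟩

omit hR in
/-- a configuration off the piece -/
theorem adm_off (hd : c.1 \ d.1 ⊆ M.sys.inn π) {y : C0 (W.Z d') κ (lam ⊕ lam)}
    (hy : y.Adm (J.B d') (gF d' b s'.F)) :
    ∃ y₀ : C0 (W.Z d) κ (lam ⊕ lam), Tmp64.AdmOn y₀ (J.B d) (gF d b s.F) (W.un d {π})ᶜ := by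
  have k : ∀ z ∉ W.un d {π}, ∀ a' ∈ c.1 \ d.1, 1 ≤ |hZ W.toCaps d a' z| := fun z hz a' ha' =>
    not_lt.1 fun k => hz ((un_one W.toCaps d π).ge (inn_pc (mem_d s.up (cyl_of s.up ha')) S.pi (hd ha') k))
  have o := (S.h.ok S.pi true).cl.1.isOpen_compl
  have g := S.h.rel S.h' S.u S.hJ S.hW S.hΛ S.hm (o.preimage (W.up_oe S.u).contMDiff.continuous)
    fun z hz a' ha' => .inr (by
      rw [← hZ_up S.u (mem_d s.up (cyl_of s.up ha')) (mem_d s'.up (cyl_of s.up ha'))]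
      exact le_trans (by norm_num) (k _ hz a' ha'))
  refine ⟨_, ((gr_symm (φ := grH g (W.up_oe S.u).inj.injOn) g S.h'.vol S.h.vol).mono o fun z hz =>
    ?_).admOn_iff.2 ((Tmp64.admOn_univ.2 hy).mono (subset_univ _))⟩
  obtain ⟨w, rfl⟩ := (W.mem_range_up S.u (z := z)).2 fun x hx e k1 => by
    obtain ⟨a', k2, y, rfl⟩ := Mark.mem_cores.1 k1
    have k3 : a' ∈ c.1 \ d.1 := ⟨s'.up.1 k2, fun k => hx (Mark.mem_cores.2 ⟨a', k, y, rfl⟩)⟩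
    have := k z hz a' k3
    rw [← e, show W.φ d _ = W.nj d a' (y, 0) from rfl,
      hZ_nj _ (mem_d s.up (cyl_of s.up k3)) hx (by simp)] at this
    norm_num at this
  exact ⟨w, hz, rfl⟩

end Sid

end Crest.Agent.X212.Add46
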